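import Vale.Agent.Lib.P113.Prim

namespace Vale.Agent.Lib.P113

/-- Exact rational coefficient: the `k`-th derivative of `t ↦ (1-t)^{-m} exp(-1/(1-t))` equals
`Rk r k m * exp(-r)` where `r = 1/(1-t)`. -/
def Rk (r : QCode) : ℕ → ℕ → QCode
  | 0, m => qpow r m
  | k + 1, m => qsub (qmul (qnat m) (Rk r k (m + 1))) (Rk r k (m + 2))

theorem pr_Rk₂ : Primrec₂ (fun (r : QCode) (b : ℕ × ℕ) => Rk r b.1 b.2) := by
  refine Primrec.nat_omega_rec (fun r b => Rk r b.1 b.2)
    (m := fun _ b => b.1)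
    (l := fun _ b => if b.1 = 0 then [] else [(b.1 - 1, b.2 + 1), (b.1 - 1, b.2 + 2)])
    (g := fun r z => some (if z.1.1 = 0 then qpow r z.1.2 else
      qsub (qmul (qnat z.1.2) (z.2.getD 0 (0, 0, 0))) (z.2.getD 1 (0, 0, 0))))
    ?_ ?_ ?_ ?_ ?_
  · exact Primrec₂.mk (by fun_prop)
  · exact Primrec₂.mk (pr_ite_eq (by fun_prop) (by fun_prop) (by fun_prop) (by fun_prop))
  · exact Primrec₂.mk (pr_some (pr_ite_eq (by fun_prop) (by fun_prop) (by fun_prop) (by fun_prop)))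
  · rintro r ⟨k, m⟩ b' hb'
    cases k with
    | zero => simp at hb'
    | succ k =>
      simp at hb'
      rcases hb' with rfl | rfl <;> simp
  · rintro r ⟨k, m⟩
    cases k with
    | zero => simp [Rk]
    | succ k => simp [Rk]

@[fun_prop] theorem pr_Rk {α : Type*} [Primcodable α] {r : α → QCode} {k m : α → ℕ}
    (hr : Primrec r) (hk : Primrec k) (hm : Primrec m) :
    Primrec (fun z => Rk (r z) (k z) (m z)) :=
  pr_Rk₂.comp hr (hk.pair hm)

end Vale.Agent.Lib.P113
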