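import Vale.Agent.Lib.P113.Prim

namespace Vale.Agent.Lib.P113

theorem pow_sub_pow_le_mul {a b : ℝ} (hb : 0 ≤ b) (hab : b ≤ a) (ha : a ≤ 1) (n : ℕ) :
    a ^ n - b ^ n ≤ n * (a - b) := by
  induction n with
  | zero => simp
  | succ n ih =>
    have h1 : b ^ n ≤ 1 := pow_le_one₀ hb (hab.trans ha)
    have h2 : 0 ≤ b ^ n := pow_nonneg hb n
    have h3 : 0 ≤ a ^ n - b ^ n := sub_nonneg.2 (pow_le_pow_left₀ hb hab n)
    have h4 : 0 ≤ a := hb.trans hab
    push_cast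
    rw [pow_succ, pow_succ]
    nlinarith

theorem exp_approx (p q n : ℕ) (hp : 1 ≤ p) (hn : 1 ≤ n) :
    |((n * p : ℕ) : ℝ) ^ n / ((n * p + q : ℕ) : ℝ) ^ n - Real.exp (-((q : ℝ) / p))|
      ≤ (q : ℝ) ^ 2 / n := by
  have hp' : (1 : ℝ) ≤ p := by exact_mod_cast hp
  have hn' : (1 : ℝ) ≤ n := by exact_mod_cast hn
  have hq' : (0 : ℝ) ≤ q := Nat.cast_nonneg q
  set x : ℝ := (q : ℝ) / (n * p) with hx
  have hx0 : 0 ≤ x := by positivity
  set a : ℝ := 1 / (1 + x) with ha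
  set b : ℝ := Real.exp (-x) with hb
  have e1 : ((n * p : ℕ) : ℝ) ^ n / ((n * p + q : ℕ) : ℝ) ^ n = a ^ n := by
    rw [← div_pow]
    congr 1
    rw [ha, hx]
    push_cast
    field_simp
  have e2 : Real.exp (-((q : ℝ) / p)) = b ^ n := by
    rw [hb, ← Real.exp_nat_mul]
    congr 1
    rw [hx]
    field_simp
  rw [e1, e2]
  have hb0 : 0 ≤ b := (Real.exp_pos _).le
  have hab : b ≤ a := by
    rw [hb, ha, Real.exp_neg, one_div]
    apply inv_anti₀ (by positivity)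
    linarith [Real.add_one_le_exp x]
  have ha1 : a ≤ 1 := by
    rw [ha]
    apply div_le_one_of_le₀ (by linarith) (by linarith)
  have hdiff : a - b ≤ x ^ 2 := by
    have h1 : 1 - x ≤ b := by
      have := Real.add_one_le_exp (-x)
      rw [hb]; linarith
    have h2 : a - (1 - x) = x ^ 2 / (1 + x) := by
      rw [ha]; field_simp; ring
    have h3 : x ^ 2 / (1 + x) ≤ x ^ 2 := by
      apply div_le_self (by positivity) (by linarith)
    linarith
  have h5 := pow_sub_pow_le_mul hb0 hab ha1 n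
  have h6 : 0 ≤ a ^ n - b ^ n := sub_nonneg.2 (pow_le_pow_left₀ hb0 hab n)
  rw [abs_of_nonneg h6]
  have h7 : (n : ℝ) * x ^ 2 ≤ (q : ℝ) ^ 2 / n := by
    rw [hx, div_pow]
    have : (n : ℝ) * ((q : ℝ) ^ 2 / ((n : ℝ) * p) ^ 2) = (q : ℝ) ^ 2 / n / (p : ℝ) ^ 2 := by
      field_simp
    rw [this]
    apply div_le_self (by positivity)
    nlinarith
  have h8 : (n : ℝ) * (a - b) ≤ n * x ^ 2 := by
    apply mul_le_mul_of_nonneg_left hdiff (by linarith)
  linarith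

end Vale.Agent.Lib.P113
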