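import Vale.Agent.Lib.P113.Prim

namespace Vale.Agent.Lib.P113

theorem lookup_congr {α β : Type*} (i1 i2 : BEq α) [@LawfulBEq α i1] [@LawfulBEq α i2] (a : α)
    (l : List (α × β)) : @List.lookup α β i1 a l = @List.lookup α β i2 a l := by
  induction l with
  | nil => rfl
  | cons p l ih =>
    obtain ⟨k, b⟩ := p
    have hb : (@BEq.beq α i1 a k) = (@BEq.beq α i2 a k) := by
      by_cases h : a = k
      · subst h
        rw [@BEq.rfl α i1 _ a, @BEq.rfl α i2 _ a]
      · rw [(@beq_eq_false_iff_ne α i1 _ a k).2 h, (@beq_eq_false_iff_ne α i2 _ a k).2 h]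
    simp only [List.lookup]
    rw [hb, ih]

theorem pr_step₂ : Primrec₂ step := by
  have h : Primrec (fun z : Machine × Cfg =>
      (Option.casesOn (@List.lookup _ _ instBEqOfDecidableEq (z.2.1, z.2.2.2.headD 0) z.1.1) z.2
        (fun r => bif r.2.2 then (r.1, r.2.1 :: z.2.2.1, z.2.2.2.tail)
          else (r.1, z.2.2.1.tail, z.2.2.1.headD 0 :: r.2.1 :: z.2.2.2.tail)) : Cfg)) := by
    refine Primrec.option_casesOn (pr_lookup (by fun_prop) (by fun_prop)) (by fun_prop) ?_
    exact Primrec₂.mk (Primrec.cond (by fun_prop) (by fun_prop) (by fun_prop))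
  refine Primrec₂.mk (h.of_eq ?_)
  rintro ⟨M, q, L, R⟩
  simp only [step]
  rw [lookup_congr instBEqOfDecidableEq instBEqProd]
  cases hl : List.lookup (q, R.headD 0) M.1 with
  | none => rfl
  | some r =>
    obtain ⟨q', b, d⟩ := r
    cases d <;> rfl

/-- The configuration after `n` steps on input `w`. -/
def run (M : Machine) (w : List ℕ) (n : ℕ) : Cfg := (step M)^[n] (0, [], w)

@[fun_prop] theorem pr_run {α : Type*} [Primcodable α] {M : α → Machine} {w : α → List ℕ}
    {n : α → ℕ} (hM : Primrec M) (hw : Primrec w) (hn : Primrec n) :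
    Primrec (fun z => run (M z) (w z) (n z)) := by
  unfold run
  refine Primrec.nat_iterate hn (by fun_prop) ?_
  exact Primrec₂.mk (pr_step₂.comp (by fun_prop) (by fun_prop))

/-- `1` if the machine is in a halting state after `n` steps, else `0`. -/
def hbit (M : Machine) (w : List ℕ) (n : ℕ) : ℕ := if (run M w n).1 ∈ M.2 then 1 else 0

@[fun_prop] theorem pr_hbit {α : Type*} [Primcodable α] {M : α → Machine} {w : α → List ℕ}
    {n : α → ℕ} (hM : Primrec M) (hw : Primrec w) (hn : Primrec n) :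
    Primrec (fun z => hbit (M z) (w z) (n z)) := by
  unfold hbit
  refine Primrec.ite ?_ (by fun_prop) (by fun_prop)
  have h : PrimrecRel fun (L : List ℕ) (b : ℕ) => ∃ a ∈ L, a = b :=
    PrimrecRel.exists_mem_list Primrec.eq
  have h2 := h.comp (f := fun z => (M z).2) (g := fun z => (run (M z) (w z) (n z)).1)
    (by fun_prop) (by fun_prop)
  refine h2.of_eq ?_
  intro z
  simp

/-- `Kn M w N = ∑_{n ≤ N} hbit n * 2^(N-n)`. -/
def Kn (M : Machine) (w : List ℕ) : ℕ → ℕ
  | 0 => hbit M w 0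
  | N + 1 => 2 * Kn M w N + hbit M w (N + 1)

@[fun_prop] theorem pr_Kn {α : Type*} [Primcodable α] {M : α → Machine} {w : α → List ℕ}
    {n : α → ℕ} (hM : Primrec M) (hw : Primrec w) (hn : Primrec n) :
    Primrec (fun z => Kn (M z) (w z) (n z)) := by
  have h : Primrec (fun z => Nat.rec (motive := fun _ => ℕ) (hbit (M z) (w z) 0)
      (fun N IH => 2 * IH + hbit (M z) (w z) (N + 1)) (n z)) := by
    refine Primrec.nat_rec' (g := fun z => hbit (M z) (w z) 0)
      (h := fun z p => 2 * p.2 + hbit (M z) (w z) (p.1 + 1)) hn (by fun_prop) ?_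
    exact Primrec₂.mk (by fun_prop)
  refine h.of_eq ?_
  intro z
  induction n z with
  | zero => rfl
  | succ N ih => simp only [Kn]; rw [← ih]

theorem halts_iff (M : Machine) (w : List ℕ) : Halts M w ↔ ∃ n, hbit M w n = 1 := by
  unfold Halts hbit run
  constructor
  · rintro ⟨n, hn⟩; exact ⟨n, by simp [hn]⟩
  · rintro ⟨n, hn⟩
    refine ⟨n, ?_⟩
    by_contra h
    simp [h] at hn

theorem hbit_le_one (M : Machine) (w : List ℕ) (n : ℕ) : hbit M w n ≤ 1 := by
  unfold hbit; split <;> simp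

/-- The amplitude of the force: a computable real that is positive iff `M` halts on `w`. -/
noncomputable def cHalt (M : Machine) (w : List ℕ) : ℝ := ∑' n, (hbit M w n : ℝ) / 2 ^ n

theorem hterm_nonneg (M : Machine) (w : List ℕ) (n : ℕ) : 0 ≤ (hbit M w n : ℝ) / 2 ^ n := by
  positivity

theorem hterm_le (M : Machine) (w : List ℕ) (n : ℕ) :
    (hbit M w n : ℝ) / 2 ^ n ≤ (1 / 2 : ℝ) ^ n := by
  have h : (hbit M w n : ℝ) ≤ 1 := by exact_mod_cast hbit_le_one M w n
  rw [one_div, inv_pow, div_eq_mul_inv]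
  have : (0 : ℝ) ≤ (2 ^ n)⁻¹ := by positivity
  nlinarith

theorem hterm_summable (M : Machine) (w : List ℕ) :
    Summable (fun n => (hbit M w n : ℝ) / 2 ^ n) :=
  Summable.of_nonneg_of_le (hterm_nonneg M w) (hterm_le M w) summable_geometric_two

theorem cHalt_nonneg (M : Machine) (w : List ℕ) : 0 ≤ cHalt M w :=
  tsum_nonneg (hterm_nonneg M w)

theorem cHalt_le_two (M : Machine) (w : List ℕ) : cHalt M w ≤ 2 := by
  have := (hterm_summable M w).tsum_le_tsum (hterm_le M w) summable_geometric_two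
  rwa [tsum_geometric_two] at this

theorem cHalt_pos_of_halts {M : Machine} {w : List ℕ} (h : Halts M w) : 0 < cHalt M w := by
  obtain ⟨n, hn⟩ := (halts_iff M w).1 h
  have h1 : (hbit M w n : ℝ) / 2 ^ n ≤ cHalt M w :=
    (hterm_summable M w).le_tsum n (fun j _ => hterm_nonneg M w j)
  have h2 : 0 < (hbit M w n : ℝ) / 2 ^ n := by rw [hn]; positivity
  linarith

theorem cHalt_zero_of_not_halts {M : Machine} {w : List ℕ} (h : ¬ Halts M w) : cHalt M w = 0 := by
  have h0 : ∀ n, hbit M w n = 0 := by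
    intro n
    by_contra hne
    have := hbit_le_one M w n
    exact h ((halts_iff M w).2 ⟨n, by omega⟩)
  simp [cHalt, h0]

theorem Kn_div (M : Machine) (w : List ℕ) (N : ℕ) :
    (Kn M w N : ℝ) / 2 ^ N = ∑ n ∈ Finset.range (N + 1), (hbit M w n : ℝ) / 2 ^ n := by
  induction N with
  | zero => simp [Kn]
  | succ N ih =>
    rw [Finset.sum_range_succ, ← ih]
    simp only [Kn]
    push_cast
    field_simp
    ring

theorem cHalt_approx (M : Machine) (w : List ℕ) (N : ℕ) :
    |cHalt M w - (Kn M w N : ℝ) / 2 ^ N| ≤ (1 / 2 : ℝ) ^ N := by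
  have hs := hterm_summable M w
  have h1 := hs.sum_add_tsum_nat_add (N + 1)
  rw [Kn_div]
  have h2 : cHalt M w - ∑ n ∈ Finset.range (N + 1), (hbit M w n : ℝ) / 2 ^ n
      = ∑' n, (hbit M w (n + (N + 1)) : ℝ) / 2 ^ (n + (N + 1)) := by
    unfold cHalt
    linarith
  rw [h2]
  have h3 : 0 ≤ ∑' n, (hbit M w (n + (N + 1)) : ℝ) / 2 ^ (n + (N + 1)) :=
    tsum_nonneg fun n => hterm_nonneg M w _
  rw [abs_of_nonneg h3]
  have hs2 : Summable (fun n : ℕ => (1 / 2 : ℝ) ^ (n + (N + 1))) :=
    (summable_nat_add_iff (N + 1)).2 summable_geometric_two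
  have h4 := ((summable_nat_add_iff (N + 1)).2 hs).tsum_le_tsum
    (fun n => hterm_le M w (n + (N + 1))) hs2
  refine h4.trans (le_of_eq ?_)
  simp only [pow_add]
  rw [tsum_mul_right, tsum_geometric_two]
  ring

end Vale.Agent.Lib.P113
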