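import Vale.Agent.Lib.P113.Flat
import Vale.Agent.Lib.P113.Machine
import Vale.Agent.Lib.P113.ExpApprox
import Vale.Agent.Lib.P113.Coeff

namespace Vale.Agent.Lib.P113

theorem Dk_eq {t : ℝ} (ht : 0 < 1 - t) {r : QCode} (hr : qval r = (1 - t)⁻¹) (k : ℕ) :
    ∀ m, Dk k m t = qval (Rk r k m) * Real.exp (-(1 - t)⁻¹) := by
  induction k with
  | zero =>
    intro m
    simp only [Dk, H, Rk, qval_qpow, hr, expNegInvGlue, not_le.2 ht, if_false]
  | succ k ih =>
    intro m
    simp only [Dk, Rk, qval_qsub, qval_qmul, qval_qnat, ih]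
    ring

/-- Numerator of `1 - t` over the denominator `t.2.2 + 1` (truncated at `0`). -/
def numer (t : QCode) : ℕ := t.2.2 + 1 + t.2.1 - t.1

/-- The exact rational factor of the `k`-th derivative of `psi` at `t`. -/
def coef (t : QCode) (k : ℕ) : QCode := Rk (qmk (t.2.2 + 1) 0 (numer t)) k 0

/-- The working precision. -/
def prec (R : QCode) (Q d : ℕ) : ℕ := 4 * (R.1 + R.2.1 + 1) * Q ^ 2 * (d + 1)

/-- The product of the three approximations. -/
def approxFin (M : Machine) (w : List ℕ) (R : QCode) (P Q n : ℕ) : QCode :=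
  qmul (qmul (qmk (Kn M w n) 0 (2 ^ n)) R) (qmk ((n * P) ^ n) 0 ((n * P + Q) ^ n))

/-- The approximation algorithm for `cHalt M w * psi^{(k)}(t)` with error at most `1/(d+1)`. -/
def approxCore (M : Machine) (w : List ℕ) (k : ℕ) (t : QCode) (d : ℕ) : QCode :=
  if numer t = 0 then (0, 0, 0) else
    approxFin M w (coef t k) (numer t) (t.2.2 + 1) (prec (coef t k) (t.2.2 + 1) d)

theorem approxFin_spec (M : Machine) (w : List ℕ) (R : QCode) (P Q d : ℕ) (hP : 1 ≤ P)
    (hQ : 1 ≤ Q) :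
    |cHalt M w * (qval R * Real.exp (-((Q : ℝ) / P))) - qval (approxFin M w R P Q (prec R Q d))|
      ≤ 1 / ((d : ℝ) + 1) := by
  set n := prec R Q d with hn
  set B : ℕ := R.1 + R.2.1 with hB
  have hQ' : (1 : ℝ) ≤ Q := by exact_mod_cast hQ
  have hd' : (0 : ℝ) ≤ d := Nat.cast_nonneg d
  have hB' : (0 : ℝ) ≤ B := Nat.cast_nonneg B
  have hnR : (n : ℝ) = 4 * ((B : ℝ) + 1) * (Q : ℝ) ^ 2 * ((d : ℝ) + 1) := by
    rw [hn, prec, hB]; push_cast; ring
  have hn1 : 1 ≤ n := by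
    have : (1 : ℝ) ≤ n := by
      rw [hnR]
      have : (1 : ℝ) ≤ (Q : ℝ) ^ 2 := one_le_pow₀ hQ'
      nlinarith [mul_nonneg hB' hd', mul_nonneg (mul_nonneg hB' hd') (sq_nonneg (Q : ℝ))]
    exact_mod_cast this
  have hn1' : (1 : ℝ) ≤ n := by exact_mod_cast hn1
  have v1 : qval (qmk (Kn M w n) 0 (2 ^ n)) = (Kn M w n : ℝ) / 2 ^ n := by
    rw [qval_qmk _ _ (Nat.one_le_two_pow)]; simp
  have v2 : qval (qmk ((n * P) ^ n) 0 ((n * P + Q) ^ n))
      = ((n * P : ℕ) : ℝ) ^ n / ((n * P + Q : ℕ) : ℝ) ^ n := by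
    rw [qval_qmk _ _ (Nat.one_le_pow _ _ (by positivity))]; simp
  unfold approxFin
  rw [qval_qmul, qval_qmul, v1, v2]
  set c := cHalt M w
  set c' := (Kn M w n : ℝ) / 2 ^ n
  set V := qval R
  set E0 := Real.exp (-((Q : ℝ) / P))
  set E1 := ((n * P : ℕ) : ℝ) ^ n / ((n * P + Q : ℕ) : ℝ) ^ n
  have hc : |c - c'| ≤ (1 / 2 : ℝ) ^ n := cHalt_approx M w n
  have hE : |E1 - E0| ≤ (Q : ℝ) ^ 2 / n := exp_approx P Q n hP hn1
  have hV : |V| ≤ B := abs_qval_le R
  have hc0 : 0 ≤ c := cHalt_nonneg M w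
  have hc2 : c ≤ 2 := cHalt_le_two M w
  have hE1 : |E1| ≤ 1 := by
    have h0 : 0 ≤ E1 := by positivity
    rw [abs_of_nonneg h0]
    apply div_le_one_of_le₀ _ (by positivity)
    apply pow_le_pow_left₀ (by positivity)
    push_cast
    linarith
  have hpow : (1 / 2 : ℝ) ^ n ≤ 1 / n := by
    rw [one_div, inv_pow, one_div]
    apply inv_anti₀ (by linarith)
    exact_mod_cast (Nat.lt_two_pow_self (n := n)).le
  have e1 : c * (V * E0) - c' * V * E1 = V * (c * (E0 - E1) + (c - c') * E1) := by ring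
  rw [e1, abs_mul]
  have h1 : |c * (E0 - E1) + (c - c') * E1| ≤ 2 * ((Q : ℝ) ^ 2 / n) + 1 / n := by
    refine (abs_add_le _ _).trans ?_
    rw [abs_mul, abs_mul, abs_of_nonneg hc0, abs_sub_comm E0 E1]
    have a1 : c * |E1 - E0| ≤ 2 * ((Q : ℝ) ^ 2 / n) :=
      mul_le_mul hc2 hE (abs_nonneg _) (by norm_num)
    have a2 : |c - c'| * |E1| ≤ (1 / n) * 1 :=
      mul_le_mul (hc.trans hpow) hE1 (abs_nonneg _) (by positivity)
    linarith
  have h2 : 2 * ((Q : ℝ) ^ 2 / n) + 1 / n ≤ 3 / (4 * ((B : ℝ) + 1) * ((d : ℝ) + 1)) := by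
    have hQ2 : (1 : ℝ) ≤ (Q : ℝ) ^ 2 := one_le_pow₀ hQ'
    have : 2 * ((Q : ℝ) ^ 2 / n) + 1 / n ≤ 3 * (Q : ℝ) ^ 2 / n := by
      have hnpos : (0 : ℝ) < n := by linarith
      rw [← mul_div_assoc, ← add_div]
      apply div_le_div_of_nonneg_right _ hnpos.le
      linarith
    refine this.trans (le_of_eq ?_)
    rw [hnR]
    field_simp
  have h3 : |V| * |c * (E0 - E1) + (c - c') * E1|
      ≤ B * (3 / (4 * ((B : ℝ) + 1) * ((d : ℝ) + 1))) :=
    mul_le_mul hV (h1.trans h2) (abs_nonneg _) hB'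
  refine h3.trans ?_
  rw [mul_div_assoc', div_le_div_iff₀ (by positivity) (by positivity)]
  nlinarith [mul_nonneg hB' hd']

theorem approxCore_spec (M : Machine) (w : List ℕ) (k : ℕ) (t : QCode) (d : ℕ) :
    |cHalt M w * Dk k 0 (qval t) - qval (approxCore M w k t d)| ≤ 1 / ((d : ℝ) + 1) := by
  have hden : (0 : ℝ) < (t.2.2 : ℝ) + 1 := by positivity
  unfold approxCore
  by_cases h0 : numer t = 0
  · rw [if_pos h0]
    have hle : t.2.2 + 1 + t.2.1 ≤ t.1 := by unfold numer at h0; omega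
    have hle' : (t.2.2 : ℝ) + 1 + t.2.1 ≤ t.1 := by exact_mod_cast hle
    have ht : 1 ≤ qval t := by
      unfold qval
      rw [le_div_iff₀ hden]
      linarith
    rw [Dk_of_one_le k 0 _ ht]
    have : qval (0, 0, 0) = 0 := by simp [qval]
    rw [this]
    simp only [mul_zero, sub_zero, abs_zero]
    positivity
  · rw [if_neg h0]
    have hP : 1 ≤ numer t := Nat.one_le_iff_ne_zero.2 h0
    have hlt : t.1 ≤ t.2.2 + 1 + t.2.1 := by unfold numer at h0; omega
    have hPR : (numer t : ℝ) = (t.2.2 : ℝ) + 1 + t.2.1 - t.1 := by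
      unfold numer
      rw [Nat.cast_sub hlt]
      push_cast
      ring
    have hPpos : (0 : ℝ) < numer t := by exact_mod_cast hP
    have h1t : 1 - qval t = (numer t : ℝ) / ((t.2.2 : ℝ) + 1) := by
      unfold qval
      rw [hPR]
      field_simp
      ring
    have hpos : 0 < 1 - qval t := by rw [h1t]; positivity
    have hinv : (1 - qval t)⁻¹ = ((t.2.2 + 1 : ℕ) : ℝ) / (numer t : ℝ) := by
      rw [h1t, inv_div]; push_cast; ring
    have hr : qval (qmk (t.2.2 + 1) 0 (numer t)) = (1 - qval t)⁻¹ := by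
      rw [qval_qmk _ _ hP, hinv]; simp
    rw [Dk_eq hpos hr k 0, hinv]
    exact approxFin_spec M w (coef t k) (numer t) (t.2.2 + 1) d hP (by omega)

section
variable {α : Type*} [Primcodable α]

@[fun_prop] theorem pr_numer {t : α → QCode} (ht : Primrec t) : Primrec (fun z => numer (t z)) := by
  unfold numer; fun_prop

@[fun_prop] theorem pr_coef {t : α → QCode} {k : α → ℕ} (ht : Primrec t) (hk : Primrec k) :
    Primrec (fun z => coef (t z) (k z)) := by
  unfold coef; fun_prop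

@[fun_prop] theorem pr_prec {R : α → QCode} {Q d : α → ℕ} (hR : Primrec R) (hQ : Primrec Q)
    (hd : Primrec d) : Primrec (fun z => prec (R z) (Q z) (d z)) := by
  unfold prec; fun_prop

@[fun_prop] theorem pr_approxFin {M : α → Machine} {w : α → List ℕ} {R : α → QCode}
    {P Q n : α → ℕ} (hM : Primrec M) (hw : Primrec w) (hR : Primrec R) (hP : Primrec P)
    (hQ : Primrec Q) (hn : Primrec n) :
    Primrec (fun z => approxFin (M z) (w z) (R z) (P z) (Q z) (n z)) := by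
  unfold approxFin; fun_prop

@[fun_prop] theorem pr_approxCore {M : α → Machine} {w : α → List ℕ} {k : α → ℕ} {t : α → QCode}
    {d : α → ℕ} (hM : Primrec M) (hw : Primrec w) (hk : Primrec k) (ht : Primrec t)
    (hd : Primrec d) :
    Primrec (fun z => approxCore (M z) (w z) (k z) (t z) (d z)) := by
  unfold approxCore
  exact pr_ite_eq (by fun_prop) (by fun_prop) (by fun_prop) (by fun_prop)

end

/-- The type of queries to a program for a force. -/
abbrev Query : Type := ℕ × (ℕ × ℕ × ℕ) × Fin 3 × QCode × (QCode × QCode × QCode) × QCode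

/-- The algorithm behind the force compiler. -/
def approx (z : (Machine × List ℕ) × Query) : QCode :=
  if z.2.2.1.1 + z.2.2.1.2.1 + z.2.2.1.2.2 = 0 then
    approxCore z.1.1 z.1.2 z.2.1 z.2.2.2.2.1 z.2.2.2.2.2.2.2.2
  else (0, 0, 0)

theorem pr_approx : Primrec approx := by
  unfold approx
  exact pr_ite_eq (by fun_prop) (by fun_prop) (by fun_prop) (by fun_prop)

end Vale.Agent.Lib.P113
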