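import Mathlib

/-!
# P113: definitions

Forced incompressible Navier-Stokes on the flat torus `(ℝ/ℤ)^3`, written for `ℤ^3`-periodic
functions on `ℝ^3`; classical solutions; particle trajectories; Turing machines; effective forces
and force compilers.
-/

namespace Vale.Agent.Lib.P113

open Set
open scoped ContDiff

/-- Points of `ℝ^3`, the universal cover of the torus `(ℝ/ℤ)^3`. -/
abbrev R3 : Type := Fin 3 → ℝ

/-- The `i`-th unit vector. -/
def e (i : Fin 3) : R3 := Pi.single i 1

/-- `g` is invariant under the lattice `ℤ^3`, that is, `g` is a function on the torus. -/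
def Per {β : Type} (g : R3 → β) : Prop := ∀ (i : Fin 3) (x : R3), g (x + e i) = g x

/-- A vector field is differentiable in space. -/
def DiffV (g : R3 → R3) : Prop := Differentiable ℝ g

/-- A scalar field is differentiable in space. -/
def DiffS (g : R3 → ℝ) : Prop := Differentiable ℝ g

/-- The space derivative `∂_i g` of a vector field. -/
noncomputable def pdv (i : Fin 3) (g : R3 → R3) (x : R3) : R3 := fderiv ℝ g x (e i)

/-- The space derivative `∂_i g` of a scalar field. -/
noncomputable def pds (i : Fin 3) (g : R3 → ℝ) (x : R3) : ℝ := fderiv ℝ g x (e i)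

/-- `u` is differentiable in time on `[0, T]` (one-sidedly at the end points). -/
def DiffT (T : ℝ) (u : ℝ → R3 → R3) : Prop :=
  ∀ t ∈ Icc 0 T, ∀ x, DifferentiableWithinAt ℝ (fun s => u s x) (Icc 0 T) t

/-- The time derivative `∂_t u` on `[0, T]` (one-sided at the end points). -/
noncomputable def dtW (T : ℝ) (u : ℝ → R3 → R3) (t : ℝ) (x : R3) : R3 :=
  derivWithin (fun s => u s x) (Icc 0 T) t

/-- Joint continuity on `[0, T] × ℝ^3` of a time-dependent vector field. -/
def JContV (T : ℝ) (g : ℝ → R3 → R3) : Prop :=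
  ContinuousOn (fun z : ℝ × R3 => g z.1 z.2) (Icc 0 T ×ˢ univ)

/-- Joint continuity on `[0, T] × ℝ^3` of a time-dependent scalar field. -/
def JContS (T : ℝ) (g : ℝ → R3 → ℝ) : Prop :=
  ContinuousOn (fun z : ℝ × R3 => g z.1 z.2) (Icc 0 T ×ˢ univ)

/-- The regularity of a classical solution: `∂_t u`, `∂_i u`, `∂_i ∂_j u`, `∂_i p` exist and they,
`u` and `p` are continuous on `[0, T] × ℝ^3`. -/
def Regular (T : ℝ) (u : ℝ → R3 → R3) (p : ℝ → R3 → ℝ) : Prop :=
  DiffT T u ∧
  (∀ t ∈ Icc 0 T, DiffV (u t) ∧ (∀ i, DiffV (pdv i (u t))) ∧ DiffS (p t)) ∧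
  JContV T u ∧ JContV T (dtW T u) ∧ (∀ i, JContV T (fun t => pdv i (u t))) ∧
  (∀ i j, JContV T (fun t => pdv i (pdv j (u t)))) ∧
  JContS T p ∧ (∀ i, JContS T (fun t => pds i (p t)))

/-- The momentum equation `∂_t u + (u·∇)u = -∇p + νΔu + f`, component by component. -/
def Momentum (ν : ℝ) (f : ℝ → R3 → R3) (T : ℝ) (u : ℝ → R3 → R3) (p : ℝ → R3 → ℝ) : Prop :=
  ∀ t ∈ Icc 0 T, ∀ (x : R3) (j : Fin 3),
    dtW T u t x j + ∑ i, u t x i * pdv i (u t) x j
      = - pds j (p t) x + ν * ∑ i, pdv i (pdv i (u t)) x j + f t x j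

/-- `div u = 0`. -/
def DivFree (T : ℝ) (u : ℝ → R3 → R3) : Prop :=
  ∀ t ∈ Icc 0 T, ∀ x : R3, ∑ i, pdv i (u t) x i = 0

/-- The pressure has mean zero over the torus. -/
def MeanZero (T : ℝ) (p : ℝ → R3 → ℝ) : Prop :=
  ∀ t ∈ Icc 0 T, ∫ x in Icc (0 : R3) 1, p t x = 0

/-- `(u, p)` is a classical solution on `[0, T]` of the forced Navier-Stokes system on the torus
with viscosity `ν`, force `f` and zero initial velocity. -/
def IsClassicalSolution (ν : ℝ) (f : ℝ → R3 → R3) (T : ℝ)
    (u : ℝ → R3 → R3) (p : ℝ → R3 → ℝ) : Prop :=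
  (∀ t ∈ Icc 0 T, Per (u t) ∧ Per (p t)) ∧ Regular T u p ∧ Momentum ν f T u p ∧ DivFree T u ∧
  (∀ x, u 0 x = 0) ∧ MeanZero T p

/-- `X` is the trajectory of the particle that starts at `a` in the velocity field `u`. -/
def IsTrajectory (u : ℝ → R3 → R3) (a : R3) (X : ℝ → R3) : Prop :=
  X 0 = a ∧ ∀ t, 0 ≤ t → HasDerivWithinAt X (u t (X t)) (Ici 0) t

/-- A time-dependent vector field is smooth in `(t, x)`. -/
def SmoothV (f : ℝ → R3 → R3) : Prop := ContDiff ℝ ∞ (fun z : ℝ × R3 => f z.1 z.2)

/-- A time-dependent scalar field is smooth in `(t, x)`. -/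
def SmoothS (p : ℝ → R3 → ℝ) : Prop := ContDiff ℝ ∞ (fun z : ℝ × R3 => p z.1 z.2)

/-- A deterministic one-tape Turing machine: a finite transition table and a finite list of
halting states. States and tape symbols are natural numbers, the start state is `0`, the blank
is `0`. The entry `((q, a), (q', b, d))` reads: in state `q` scanning `a`, write `b`, move the head
right if `d` is true and left otherwise, and go to state `q'`. The first entry with key `(q, a)`
is the one that applies. -/
abbrev Machine : Type := List ((ℕ × ℕ) × (ℕ × ℕ × Bool)) × List ℕ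

/-- A configuration `(q, L, R)`: the state `q`, the cells left of the head (nearest first), and
the cells from the head on to the right. All cells beyond the two lists are blank. -/
abbrev Cfg : Type := ℕ × List ℕ × List ℕ

/-- One step of the machine (a configuration with no applicable entry does not change). -/
def step (M : Machine) : Cfg → Cfg
  | (q, L, R) =>
    match M.1.lookup (q, R.headD 0) with
    | none => (q, L, R)
    | some (q', b, true) => (q', b :: L, R.tail)
    | some (q', b, false) => (q', L.tail, L.headD 0 :: b :: R.tail)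

/-- `M` halts on the input word `w`: started in state `0` with the head on the first cell of `w`
on an otherwise blank tape, it is in a halting state after finitely many steps. -/
def Halts (M : Machine) (w : List ℕ) : Prop :=
  ∃ n : ℕ, ((step M)^[n] (0, [], w)).1 ∈ M.2

/-- Codes of rational numbers: `(a, b, d)` stands for `(a - b) / (d + 1)`. -/
abbrev QCode : Type := ℕ × ℕ × ℕ

/-- The rational number (as a real) that a code stands for. -/
noncomputable def qval (c : QCode) : ℝ := ((c.1 : ℝ) - (c.2.1 : ℝ)) / ((c.2.2 : ℝ) + 1)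

/-- Time derivative of a time-dependent vector field. -/
noncomputable def dT (f : ℝ → R3 → R3) : ℝ → R3 → R3 := fun t x => deriv (fun s => f s x) t

/-- Derivative of a time-dependent vector field in the `j`-th space direction. -/
noncomputable def dX (j : Fin 3) (f : ℝ → R3 → R3) : ℝ → R3 → R3 := fun t => pdv j (f t)

/-- The mixed derivative `∂_t^k ∂_1^{a 0} ∂_2^{a 1} ∂_3^{a 2} f`. -/
noncomputable def mixedDeriv (k : ℕ) (a : Fin 3 → ℕ) (f : ℝ → R3 → R3) : ℝ → R3 → R3 :=
  dT^[k] ((dX 0)^[a 0] ((dX 1)^[a 1] ((dX 2)^[a 2] f)))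

/-- The program `c` computes the force `f`: asked for the component `i` of a mixed derivative at a
rational point `(t, x)`, `t ≥ 0`, and given a rational accuracy `ε > 0`, it halts and returns a
rational number within `ε` of the true value. -/
def IsProgramFor (c : Nat.Partrec.Code) (f : ℝ → R3 → R3) : Prop :=
  ∀ (k : ℕ) (a : Fin 3 → ℕ) (i : Fin 3) (t : QCode) (x : Fin 3 → QCode) (ε : QCode),
    0 ≤ qval t → 0 < qval ε →
    ∃ r : QCode,
      c.eval (Encodable.encode (k, (a 0, a 1, a 2), i, t, (x 0, x 1, x 2), ε))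
        = Part.some (Encodable.encode r) ∧
      |mixedDeriv k a f (qval t) (fun j => qval (x j)) i - qval r| ≤ qval ε

/-- A force compiler: an algorithm `compile` that turns every pair (machine, input) into a program
for a smooth force on the torus, such that from the time `T0` on the force is periodic in time and
depends on the machine only. -/
structure ForceCompiler where
  force : Machine → List ℕ → ℝ → R3 → R3
  compile : Machine × List ℕ → Nat.Partrec.Code
  computable : Computable compile
  smooth : ∀ M w, SmoothV (force M w)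
  per : ∀ M w t, Per (force M w t)
  program : ∀ M w, IsProgramFor (compile (M, w)) (force M w)
  T0 : ℝ
  periodic : ∀ M, ∃ P : ℝ, 0 < P ∧ ∀ w t x, T0 ≤ t → force M w (t + P) x = force M w t x
  machine_only : ∀ M w w' t x, T0 ≤ t → force M w t x = force M w' t x

end Vale.Agent.Lib.P113
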