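import Vale.Agent.Lib.P113.Defs

namespace Vale.Agent.Lib.P113
open Set Polynomial
open scoped ContDiff

/-- `H m x = x^{-m} exp(-1/x)` for `x > 0` and `0` for `x ≤ 0`. -/
noncomputable def H (m : ℕ) (x : ℝ) : ℝ := (x⁻¹) ^ m * expNegInvGlue x

theorem H_hasDerivAt (m : ℕ) (x : ℝ) : HasDerivAt (H m) (H (m + 2) x - m * H (m + 1) x) x := by
  have h := expNegInvGlue.hasDerivAt_polynomial_eval_inv_mul (X ^ m) x
  have e1 : (fun x : ℝ => eval x⁻¹ (X ^ m : ℝ[X]) * expNegInvGlue x) = H m := by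
    funext y; simp [H]
  rw [e1] at h
  refine h.congr_deriv ?_
  simp only [H]
  cases m with
  | zero => simp
  | succ k => simp; ring

/-- `Dk k m t` is the `k`-th derivative of `t ↦ H m (1 - t)`. -/
noncomputable def Dk : ℕ → ℕ → ℝ → ℝ
  | 0, m, t => H m (1 - t)
  | k + 1, m, t => m * Dk k (m + 1) t - Dk k (m + 2) t

theorem Dk_hasDerivAt (k : ℕ) : ∀ (m : ℕ) (t : ℝ), HasDerivAt (Dk k m) (Dk (k + 1) m t) t := by
  induction k with
  | zero =>
    intro m t
    have h := (H_hasDerivAt m (1 - t)).scomp t ((hasDerivAt_id t).const_sub 1)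
    simp only [Dk]
    refine h.congr_deriv ?_
    simp
  | succ k ih =>
    intro m t
    have h := ((ih (m + 1) t).const_mul (m : ℝ)).sub (ih (m + 2) t)
    have e1 : Dk (k + 1) m = fun t => m * Dk k (m + 1) t - Dk k (m + 2) t := by
      funext t; rfl
    rw [e1]
    exact h

/-- The time profile of the force. -/
noncomputable def psi (t : ℝ) : ℝ := expNegInvGlue (1 - t)

theorem Dk_zero_zero : Dk 0 0 = psi := by
  funext t
  simp [Dk, H, psi]

theorem iter_deriv_psi (k : ℕ) : deriv^[k] psi = Dk k 0 := by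
  induction k with
  | zero => simp [Dk_zero_zero]
  | succ k ih =>
    rw [Function.iterate_succ_apply', ih]
    funext t
    exact (Dk_hasDerivAt k 0 t).deriv

theorem psi_contDiff : ContDiff ℝ ∞ psi := by
  unfold psi
  exact expNegInvGlue.contDiff.comp (contDiff_const.sub contDiff_id)

theorem psi_nonneg (t : ℝ) : 0 ≤ psi t := expNegInvGlue.nonneg _

theorem psi_pos {t : ℝ} (ht : t < 1) : 0 < psi t := expNegInvGlue.pos_of_pos (by linarith)

theorem psi_zero {t : ℝ} (ht : 1 ≤ t) : psi t = 0 := expNegInvGlue.zero_of_nonpos (by linarith)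

theorem Dk_of_one_le (k : ℕ) : ∀ (m : ℕ) (t : ℝ), 1 ≤ t → Dk k m t = 0 := by
  induction k with
  | zero =>
    intro m t ht
    simp [Dk, H, expNegInvGlue.zero_of_nonpos (show 1 - t ≤ 0 by linarith)]
  | succ k ih =>
    intro m t ht
    simp [Dk, ih _ t ht]

end Vale.Agent.Lib.P113
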