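import Vale.Agent.Lib.P113.Approx

namespace Vale.Agent.Lib.P113
open Set
open scoped ContDiff

/-- A vector field that depends on time only and has three equal components. -/
def tf (g : ℝ → ℝ) : ℝ → R3 → R3 := fun t _ _ => g t

theorem dX_tf (j : Fin 3) (g : ℝ → ℝ) : dX j (tf g) = tf (fun _ => 0) := by
  funext t x
  have h : tf g t = fun _ => (fun _ => g t) := rfl
  simp only [dX, pdv, h]
  simp
  rfl

theorem dX_iter_tf (j : Fin 3) (n : ℕ) (g : ℝ → ℝ) :
    (dX j)^[n] (tf g) = if n = 0 then tf g else tf (fun _ => 0) := by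
  induction n with
  | zero => simp
  | succ n ih =>
    rw [Function.iterate_succ_apply', ih]
    split <;> simp [dX_tf]

theorem dT_tf {g g' : ℝ → ℝ} (h : ∀ t, HasDerivAt g (g' t) t) : dT (tf g) = tf g' := by
  funext t x
  have : HasDerivAt (fun s => tf g s x) (tf g' t x) t := hasDerivAt_pi.2 fun _ => h t
  exact this.deriv

theorem dT_iter_zero (k : ℕ) : dT^[k] (tf (fun _ => 0)) = tf (fun _ => 0) := by
  induction k with
  | zero => rfl
  | succ k ih =>
    rw [Function.iterate_succ_apply', ih]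
    exact dT_tf fun t => hasDerivAt_const t 0

theorem dT_iter_psi (c : ℝ) (k : ℕ) :
    dT^[k] (tf (fun t => c * psi t)) = tf (fun t => c * Dk k 0 t) := by
  induction k with
  | zero => simp [Dk_zero_zero]
  | succ k ih =>
    rw [Function.iterate_succ_apply', ih]
    exact dT_tf fun t => (Dk_hasDerivAt k 0 t).const_mul c

theorem mixedDeriv_tf (c : ℝ) (k : ℕ) (a : Fin 3 → ℕ) :
    mixedDeriv k a (tf (fun t => c * psi t)) =
      if a 0 + a 1 + a 2 = 0 then tf (fun t => c * Dk k 0 t) else tf (fun _ => 0) := by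
  unfold mixedDeriv
  by_cases h2 : a 2 = 0
  · by_cases h1 : a 1 = 0
    · by_cases h0 : a 0 = 0
      · simp [h0, h1, h2, dT_iter_psi]
      · simp [h0, h1, h2, dX_iter_tf, dT_iter_zero]
    · simp [h1, h2, dX_iter_tf, dT_iter_zero]
  · simp [h2, dX_iter_tf, dT_iter_zero]

/-- The force attached to the pair `(M, w)`. -/
noncomputable def theForce (M : Machine) (w : List ℕ) : ℝ → R3 → R3 :=
  tf (fun t => cHalt M w * psi t)

theorem theForce_smooth (M : Machine) (w : List ℕ) : SmoothV (theForce M w) := by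
  unfold SmoothV theForce tf
  rw [contDiff_pi]
  intro _
  exact contDiff_const.mul (psi_contDiff.comp contDiff_fst)

theorem one_div_le_qval {ε : QCode} (h : 0 < qval ε) : 1 / ((ε.2.2 : ℝ) + 1) ≤ qval ε := by
  unfold qval at *
  have hden : (0 : ℝ) < (ε.2.2 : ℝ) + 1 := by positivity
  have h1 : (0 : ℝ) < (ε.1 : ℝ) - ε.2.1 := by
    by_contra hcon
    have : ((ε.1 : ℝ) - ε.2.1) / ((ε.2.2 : ℝ) + 1) ≤ 0 :=
      div_nonpos_of_nonpos_of_nonneg (not_lt.1 hcon) hden.le
    linarith
  have h2 : ε.2.1 < ε.1 := by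
    have : (ε.2.1 : ℝ) < ε.1 := by linarith
    exact_mod_cast this
  have h3 : (1 : ℝ) ≤ (ε.1 : ℝ) - ε.2.1 := by
    have : (ε.2.1 : ℝ) + 1 ≤ ε.1 := by exact_mod_cast h2
    linarith
  exact div_le_div_of_nonneg_right h3 hden.le

theorem approx_spec (M : Machine) (w : List ℕ) (k : ℕ) (a : Fin 3 → ℕ) (i : Fin 3) (t : QCode)
    (x : Fin 3 → QCode) (ε : QCode) (hε : 0 < qval ε) :
    |mixedDeriv k a (theForce M w) (qval t) (fun j => qval (x j)) i
      - qval (approx ((M, w), (k, (a 0, a 1, a 2), i, t, (x 0, x 1, x 2), ε)))| ≤ qval ε := by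
  unfold theForce approx
  rw [mixedDeriv_tf]
  by_cases h : a 0 + a 1 + a 2 = 0
  · simp only [h, if_true, tf]
    exact (approxCore_spec M w k t ε.2.2).trans (one_div_le_qval hε)
  · simp only [h, if_false, tf]
    have : qval (0, 0, 0) = 0 := by simp [qval]
    rw [this]
    simpa using hε.le

/-- There is a program that runs the algorithm `approx`. -/
theorem exists_code_approx : ∃ c0 : Nat.Partrec.Code, ∀ (z : Machine × List ℕ) (q : Query),
    c0.eval (Nat.pair (Encodable.encode z) (Encodable.encode q))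
      = Part.some (Encodable.encode (approx (z, q))) := by
  have h : Computable approx := pr_approx.to_comp
  obtain ⟨c0, hc0⟩ := Nat.Partrec.Code.exists_code.1 h
  refine ⟨c0, fun z q => ?_⟩
  have h2 := congrFun hc0 (Encodable.encode (z, q))
  rw [Encodable.encode_prod_val] at h2
  rw [h2, ← Encodable.encode_prod_val, Encodable.encodek]
  simp

end Vale.Agent.Lib.P113
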