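import Vale.Agent.Lib.P113.Defs

/-!
# P113: primitive recursive arithmetic on codes of rationals
-/

namespace Vale.Agent.Lib.P113

attribute [fun_prop] Primrec

section
variable {α β γ σ : Type*} [Primcodable α] [Primcodable β] [Primcodable γ] [Primcodable σ]

@[fun_prop] theorem pr_id : Primrec (fun a : α => a) := Primrec.id
@[fun_prop] theorem pr_const (b : β) : Primrec (fun _ : α => b) := Primrec.const b
@[fun_prop] theorem pr_comp {f : β → σ} {g : α → β} (hf : Primrec f) (hg : Primrec g) :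
    Primrec (fun a => f (g a)) := hf.comp hg
@[fun_prop] theorem pr_fst {f : α → β × γ} (hf : Primrec f) : Primrec (fun a => (f a).1) :=
  Primrec.fst.comp hf
@[fun_prop] theorem pr_snd {f : α → β × γ} (hf : Primrec f) : Primrec (fun a => (f a).2) :=
  Primrec.snd.comp hf
@[fun_prop] theorem pr_pair {f : α → β} {g : α → γ} (hf : Primrec f) (hg : Primrec g) :
    Primrec (fun a => (f a, g a)) := hf.pair hg
@[fun_prop] theorem pr_add {f g : α → ℕ} (hf : Primrec f) (hg : Primrec g) :
    Primrec (fun a => f a + g a) := Primrec.nat_add.comp hf hg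
@[fun_prop] theorem pr_mul {f g : α → ℕ} (hf : Primrec f) (hg : Primrec g) :
    Primrec (fun a => f a * g a) := Primrec.nat_mul.comp hf hg
@[fun_prop] theorem pr_sub {f g : α → ℕ} (hf : Primrec f) (hg : Primrec g) :
    Primrec (fun a => f a - g a) := Primrec.nat_sub.comp hf hg
@[fun_prop] theorem pr_pow {f g : α → ℕ} (hf : Primrec f) (hg : Primrec g) :
    Primrec (fun a => f a ^ g a) :=
  (Primrec₂.unpaired'.1 Nat.Primrec.pow).comp hf hg
@[fun_prop] theorem pr_cons {f : α → β} {g : α → List β} (hf : Primrec f) (hg : Primrec g) :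
    Primrec (fun a => f a :: g a) := Primrec.list_cons.comp hf hg
@[fun_prop] theorem pr_tail {g : α → List β} (hg : Primrec g) :
    Primrec (fun a => (g a).tail) := Primrec.list_tail.comp hg
@[fun_prop] theorem pr_headD {g : α → List β} (hg : Primrec g) (b : β) :
    Primrec (fun a => (g a).headD b) :=
  ((Primrec.option_getD.comp (Primrec.list_head?.comp hg) (Primrec.const b))).of_eq fun a => by
    cases g a <;> rfl
@[fun_prop] theorem pr_getD {g : α → List β} {n : α → ℕ} (hg : Primrec g) (hn : Primrec n) (b : β) :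
    Primrec (fun a => (g a).getD (n a) b) := (Primrec.list_getD b).comp hg hn
@[fun_prop] theorem pr_some {f : α → β} (hf : Primrec f) : Primrec (fun a => some (f a)) :=
  Primrec.option_some.comp hf
@[fun_prop] theorem pr_lookup [DecidableEq β] {f : α → β} {g : α → List (β × γ)} (hf : Primrec f)
    (hg : Primrec g) : Primrec (fun a => (g a).lookup (f a)) := Primrec.listLookup.comp hf hg

theorem pr_ite_le {f g : α → ℕ} {x y : α → σ} (hf : Primrec f) (hg : Primrec g) (hx : Primrec x)
    (hy : Primrec y) : Primrec (fun a => if f a ≤ g a then x a else y a) :=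
  Primrec.ite (Primrec.nat_le.comp hf hg) hx hy

theorem pr_ite_eq {f g : α → β} [DecidableEq β] {x y : α → σ} (hf : Primrec f) (hg : Primrec g)
    (hx : Primrec x) (hy : Primrec y) : Primrec (fun a => if f a = g a then x a else y a) :=
  Primrec.ite (Primrec.eq.comp hf hg) hx hy

end

/-! ### arithmetic on codes -/

/-- The code with numerator `a - b` and denominator `D` (meant for `D ≥ 1`). -/
def qmk (a b D : ℕ) : QCode := (a, b, D - 1)

def qadd (x y : QCode) : QCode :=
  (x.1 * (y.2.2 + 1) + y.1 * (x.2.2 + 1), x.2.1 * (y.2.2 + 1) + y.2.1 * (x.2.2 + 1),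
    x.2.2 * y.2.2 + x.2.2 + y.2.2)

def qneg (x : QCode) : QCode := (x.2.1, x.1, x.2.2)

def qsub (x y : QCode) : QCode := qadd x (qneg y)

def qmul (x y : QCode) : QCode :=
  (x.1 * y.1 + x.2.1 * y.2.1, x.1 * y.2.1 + x.2.1 * y.1, x.2.2 * y.2.2 + x.2.2 + y.2.2)

def qnat (n : ℕ) : QCode := (n, 0, 0)

def qpow (x : QCode) (m : ℕ) : QCode := (qmul x)^[m] (qnat 1)

theorem qval_qmk (a b : ℕ) {D : ℕ} (hD : 1 ≤ D) : qval (qmk a b D) = ((a : ℝ) - b) / D := by
  unfold qval qmk
  simp only
  rw [Nat.cast_sub hD]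
  simp

theorem qval_qadd (x y : QCode) : qval (qadd x y) = qval x + qval y := by
  unfold qval qadd
  have h1 : ((x.2.2 : ℝ) + 1) ≠ 0 := by positivity
  have h2 : ((y.2.2 : ℝ) + 1) ≠ 0 := by positivity
  have h3 : ((x.2.2 : ℝ) * y.2.2 + x.2.2 + y.2.2 + 1) ≠ 0 := by positivity
  push_cast
  field_simp
  ring

theorem qval_qneg (x : QCode) : qval (qneg x) = - qval x := by
  unfold qval qneg
  simp only
  ring

theorem qval_qsub (x y : QCode) : qval (qsub x y) = qval x - qval y := by
  unfold qsub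
  rw [qval_qadd, qval_qneg]
  ring

theorem qval_qmul (x y : QCode) : qval (qmul x y) = qval x * qval y := by
  unfold qval qmul
  have h1 : ((x.2.2 : ℝ) + 1) ≠ 0 := by positivity
  have h2 : ((y.2.2 : ℝ) + 1) ≠ 0 := by positivity
  have h3 : ((x.2.2 : ℝ) * y.2.2 + x.2.2 + y.2.2 + 1) ≠ 0 := by positivity
  push_cast
  field_simp
  ring

theorem qval_qnat (n : ℕ) : qval (qnat n) = n := by
  unfold qval qnat
  simp

theorem qval_qpow (x : QCode) (m : ℕ) : qval (qpow x m) = qval x ^ m := by
  unfold qpow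
  induction m with
  | zero => simp [qval_qnat]
  | succ m ih => rw [Function.iterate_succ_apply', qval_qmul, ih]; ring

theorem abs_qval_le (x : QCode) : |qval x| ≤ ((x.1 + x.2.1 : ℕ) : ℝ) := by
  unfold qval
  have h1 : (1 : ℝ) ≤ (x.2.2 : ℝ) + 1 := by
    have : (0 : ℝ) ≤ (x.2.2 : ℝ) := Nat.cast_nonneg _
    linarith
  rw [abs_div, abs_of_pos (by linarith : (0 : ℝ) < (x.2.2 : ℝ) + 1)]
  have h2 : |(x.1 : ℝ) - x.2.1| ≤ (x.1 : ℝ) + x.2.1 := by
    rw [abs_le]
    constructor <;> linarith [(Nat.cast_nonneg x.1 : (0 : ℝ) ≤ x.1),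
      (Nat.cast_nonneg x.2.1 : (0 : ℝ) ≤ x.2.1)]
  push_cast
  calc |(x.1 : ℝ) - x.2.1| / ((x.2.2 : ℝ) + 1) ≤ |(x.1 : ℝ) - x.2.1| / 1 := by
        apply div_le_div_of_nonneg_left (abs_nonneg _) one_pos h1
    _ ≤ (x.1 : ℝ) + x.2.1 := by simpa using h2

section
variable {α : Type*} [Primcodable α]

@[fun_prop] theorem pr_qmk {a b D : α → ℕ} (ha : Primrec a) (hb : Primrec b) (hD : Primrec D) :
    Primrec (fun z => qmk (a z) (b z) (D z)) := by
  unfold qmk; fun_prop

@[fun_prop] theorem pr_qadd {x y : α → QCode} (hx : Primrec x) (hy : Primrec y) :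
    Primrec (fun z => qadd (x z) (y z)) := by
  unfold qadd; fun_prop

@[fun_prop] theorem pr_qneg {x : α → QCode} (hx : Primrec x) :
    Primrec (fun z => qneg (x z)) := by
  unfold qneg; fun_prop

@[fun_prop] theorem pr_qsub {x y : α → QCode} (hx : Primrec x) (hy : Primrec y) :
    Primrec (fun z => qsub (x z) (y z)) := by
  unfold qsub; fun_prop

@[fun_prop] theorem pr_qmul {x y : α → QCode} (hx : Primrec x) (hy : Primrec y) :
    Primrec (fun z => qmul (x z) (y z)) := by
  unfold qmul; fun_prop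

@[fun_prop] theorem pr_qnat {x : α → ℕ} (hx : Primrec x) :
    Primrec (fun z => qnat (x z)) := by
  unfold qnat; fun_prop

@[fun_prop] theorem pr_qpow {x : α → QCode} {m : α → ℕ} (hx : Primrec x) (hm : Primrec m) :
    Primrec (fun z => qpow (x z) (m z)) := by
  unfold qpow
  refine Primrec.nat_iterate hm (by fun_prop) ?_
  exact Primrec₂.mk (by fun_prop)

end

end Vale.Agent.Lib.P113
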