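import Vale.Agent.Lib.P113.Force

namespace Vale.Agent.Lib.P113
open Set MeasureTheory
open scoped ContDiff

theorem psi_continuous : Continuous psi := psi_contDiff.continuous

/-- The velocity profile `A t = ∫_0^t psi`. -/
noncomputable def Aint (t : ℝ) : ℝ := ∫ s in (0 : ℝ)..t, psi s

theorem Aint_hasDerivAt (t : ℝ) : HasDerivAt Aint (psi t) t :=
  (psi_continuous.integral_hasStrictDerivAt 0 t).hasDerivAt

theorem Aint_contDiff : ContDiff ℝ ∞ Aint := by
  rw [contDiff_infty_iff_deriv]
  refine ⟨fun t => (Aint_hasDerivAt t).differentiableAt, ?_⟩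
  have : deriv Aint = psi := funext fun t => (Aint_hasDerivAt t).deriv
  rw [this]
  exact psi_contDiff

theorem Aint_continuous : Continuous Aint := Aint_contDiff.continuous

theorem Aint_zero : Aint 0 = 0 := by simp [Aint]

theorem Aint_mono : Monotone Aint :=
  monotone_of_deriv_nonneg (fun t => (Aint_hasDerivAt t).differentiableAt)
    (fun t => by rw [(Aint_hasDerivAt t).deriv]; exact psi_nonneg t)

theorem Aint_nonneg {t : ℝ} (ht : 0 ≤ t) : 0 ≤ Aint t := by
  have := Aint_mono ht
  rwa [Aint_zero] at this

theorem Aint_one_pos : 0 < Aint 1 := by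
  unfold Aint
  exact intervalIntegral.intervalIntegral_pos_of_pos_on (psi_continuous.intervalIntegrable 0 1)
    (fun x hx => psi_pos hx.2) one_pos

/-- The displacement profile `B t = ∫_0^t A`. -/
noncomputable def Bint (t : ℝ) : ℝ := ∫ s in (0 : ℝ)..t, Aint s

theorem Bint_hasDerivAt (t : ℝ) : HasDerivAt Bint (Aint t) t :=
  (Aint_continuous.integral_hasStrictDerivAt 0 t).hasDerivAt

theorem Bint_continuous : Continuous Bint :=
  continuous_iff_continuousAt.2 fun t => (Bint_hasDerivAt t).continuousAt

theorem Bint_zero : Bint 0 = 0 := by simp [Bint]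

theorem Bint_one_nonneg : 0 ≤ Bint 1 := by
  unfold Bint
  exact intervalIntegral.integral_nonneg zero_le_one fun u hu => Aint_nonneg hu.1

theorem Bint_lower {t : ℝ} (ht : 1 ≤ t) : Aint 1 * (t - 1) ≤ Bint t := by
  let h : ℝ → ℝ := fun t => Bint t - Aint 1 * (t - 1)
  have dh : ∀ t, HasDerivAt h (Aint t - Aint 1) t := by
    intro t
    have := (Bint_hasDerivAt t).sub (((hasDerivAt_id t).sub_const 1).const_mul (Aint 1))
    refine this.congr_deriv ?_
    simp
  have hmono : MonotoneOn h (Ici 1) := by
    refine monotoneOn_of_deriv_nonneg (convex_Ici 1)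
      (fun t _ => (dh t).continuousAt.continuousWithinAt)
      (fun t _ => (dh t).differentiableAt.differentiableWithinAt) ?_
    intro t ht
    rw [interior_Ici] at ht
    rw [(dh t).deriv]
    exact sub_nonneg.2 (Aint_mono (le_of_lt ht))
  have := hmono (mem_Ici.2 le_rfl) (mem_Ici.2 ht) ht
  simp only [h, sub_self, mul_zero, sub_zero] at this
  linarith [Bint_one_nonneg]

/-- The velocity field of the solution. -/
noncomputable def theU (M : Machine) (w : List ℕ) : ℝ → R3 → R3 :=
  tf (fun t => cHalt M w * Aint t)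

/-- The trajectory from the origin. -/
noncomputable def theX (M : Machine) (w : List ℕ) : ℝ → R3 := fun t _ => cHalt M w * Bint t

theorem tf_smooth {g : ℝ → ℝ} (hg : ContDiff ℝ ∞ g) : SmoothV (tf g) := by
  unfold SmoothV tf
  rw [contDiff_pi]
  intro _
  exact hg.comp contDiff_fst

theorem pdv_tf (i : Fin 3) (g : ℝ → ℝ) (t : ℝ) : pdv i (tf g t) = fun _ => 0 := by
  funext x
  have h : tf g t = fun _ => (fun _ => g t) := rfl
  unfold pdv
  rw [h]
  simp

theorem pdv_zero (i : Fin 3) : pdv i (fun _ => (0 : R3)) = fun _ => 0 := by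
  funext x
  unfold pdv
  simp

theorem pds_zero (i : Fin 3) : pds i (fun _ => (0 : ℝ)) = fun _ => 0 := by
  funext x
  unfold pds
  simp

theorem tf_classical (ν : ℝ) {T : ℝ} (hT : 0 < T) {g g' : ℝ → ℝ} (hg : ∀ t, HasDerivAt g (g' t) t)
    (hg' : Continuous g') (h0 : g 0 = 0) :
    IsClassicalSolution ν (tf g') T (tf g) (fun _ _ => 0) := by
  have hgc : Continuous g := continuous_iff_continuousAt.2 fun t => (hg t).continuousAt
  have hd : ∀ t ∈ Icc 0 T, ∀ x, dtW T (tf g) t x = tf g' t x := by
    intro t ht x
    have : HasDerivAt (fun s => tf g s x) (tf g' t x) t := hasDerivAt_pi.2 fun _ => hg t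
    exact this.hasDerivWithinAt.derivWithin (uniqueDiffOn_Icc hT t ht)
  refine ⟨fun t _ => ⟨fun i x => rfl, fun i x => rfl⟩,
    ⟨?_, ?_, ?_, ?_, ?_, ?_, ?_, ?_⟩, ?_, ?_, ?_, ?_⟩
  · intro t _ x
    have : HasDerivAt (fun s => tf g s x) (tf g' t x) t := hasDerivAt_pi.2 fun _ => hg t
    exact this.differentiableAt.differentiableWithinAt
  · intro t _
    refine ⟨differentiable_const _, fun i => ?_, differentiable_const _⟩
    rw [pdv_tf]
    exact differentiable_const _
  · unfold JContV tf
    exact (continuous_pi fun _ => hgc.comp continuous_fst).continuousOn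
  · have : ContinuousOn (fun z : ℝ × R3 => tf g' z.1 z.2) (Icc 0 T ×ˢ univ) := by
      unfold tf
      exact (continuous_pi fun _ => hg'.comp continuous_fst).continuousOn
    exact this.congr fun z hz => hd z.1 hz.1 z.2
  · intro i
    unfold JContV
    simp only [pdv_tf]
    exact continuousOn_const
  · intro i j
    unfold JContV
    simp only [pdv_tf, pdv_zero]
    exact continuousOn_const
  · exact continuousOn_const
  · intro i
    unfold JContS
    simp only [pds_zero]
    exact continuousOn_const
  · intro t ht x j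
    rw [hd t ht x]
    simp [pdv_tf, pdv_zero, pds_zero]
  · intro t _ x
    simp [pdv_tf]
  · intro x
    funext _
    simp [tf, h0]
  · intro t _
    simp

theorem theX_trajectory (M : Machine) (w : List ℕ) : IsTrajectory (theU M w) 0 (theX M w) := by
  refine ⟨?_, fun t _ => ?_⟩
  · funext _
    simp [theX, Bint_zero]
  · have : HasDerivAt (theX M w) (theU M w t (theX M w t)) t :=
      hasDerivAt_pi.2 fun _ => (Bint_hasDerivAt t).const_mul (cHalt M w)
    exact this.hasDerivWithinAt

theorem trajectory_unique (M : Machine) (w : List ℕ) (Y : ℝ → R3)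
    (hY : IsTrajectory (theU M w) 0 Y) (t : ℝ) (ht : 0 ≤ t) : Y t = theX M w t := by
  have hX := theX_trajectory M w
  let D : ℝ → R3 := fun s => Y s - theX M w s
  have hD : ∀ s, 0 ≤ s → HasDerivWithinAt D 0 (Ici 0) s := by
    intro s hs
    have := (hY.2 s hs).sub (hX.2 s hs)
    refine this.congr_deriv ?_
    exact sub_self _
  have hc : ContinuousOn D (Icc 0 t) := fun s hs =>
    ((hD s hs.1).continuousWithinAt).mono Icc_subset_Ici_self
  have := constant_of_has_deriv_right_zero hc
    (fun s hs => (hD s hs.1).mono (Ici_subset_Ici.2 hs.1)) t ⟨ht, le_rfl⟩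
  simp only [D, hY.1, hX.1, sub_self] at this
  exact sub_eq_zero.1 this

/-- The target open set. -/
def theO : Set R3 := {x | 1 / 2 < Real.sin (2 * Real.pi * x 0)}

theorem theO_open : IsOpen theO := by
  unfold theO
  exact isOpen_lt continuous_const (by fun_prop)

theorem theO_per (i : Fin 3) (x : R3) : x + e i ∈ theO ↔ x ∈ theO := by
  unfold theO e
  simp only [mem_ofPred_eq, Pi.add_apply]
  by_cases h : i = 0
  · subst h
    simp only [Pi.single_eq_same]
    have : 2 * Real.pi * (x 0 + 1) = 2 * Real.pi * x 0 + 2 * Real.pi := by ring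
    rw [this, Real.sin_add_two_pi]
  · have : (Pi.single i (1 : ℝ) : R3) 0 = 0 := Pi.single_eq_of_ne (Ne.symm h) _
    rw [this, add_zero]

theorem enters_iff (M : Machine) (w : List ℕ) :
    (∃ t, 0 ≤ t ∧ theX M w t ∈ theO) ↔ Halts M w := by
  constructor
  · rintro ⟨t, _, ht⟩
    by_contra hn
    have h0 := cHalt_zero_of_not_halts hn
    simp only [theO, theX, h0, mem_ofPred_eq, zero_mul, mul_zero, Real.sin_zero] at ht
    linarith
  · intro hh
    have hc := cHalt_pos_of_halts hh
    have hk := Aint_one_pos
    set c := cHalt M w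
    set t1 : ℝ := 1 + 1 / (4 * c * Aint 1) with ht1
    have ht1' : 1 ≤ t1 := by
      rw [ht1]
      have : 0 ≤ 1 / (4 * c * Aint 1) := by positivity
      linarith
    have hB : 1 / 4 ≤ c * Bint t1 := by
      have h1 := Bint_lower ht1'
      have h2 : c * (Aint 1 * (t1 - 1)) = 1 / 4 := by
        rw [ht1]; field_simp; ring
      calc 1 / 4 = c * (Aint 1 * (t1 - 1)) := h2.symm
        _ ≤ c * Bint t1 := mul_le_mul_of_nonneg_left h1 hc.le
    have hcont : ContinuousOn (fun t => c * Bint t) (Icc 0 t1) :=
      (continuous_const.mul Bint_continuous).continuousOn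
    have hmem : (1 / 4 : ℝ) ∈ Icc (c * Bint 0) (c * Bint t1) := by
      rw [Bint_zero, mul_zero]
      exact ⟨by norm_num, hB⟩
    obtain ⟨t, ht, hval⟩ := intermediate_value_Icc (by linarith : (0 : ℝ) ≤ t1) hcont hmem
    refine ⟨t, ht.1, ?_⟩
    simp only [theO, theX, mem_ofPred_eq]
    have hval' : c * Bint t = 1 / 4 := hval
    rw [hval']
    have : 2 * Real.pi * (1 / 4) = Real.pi / 2 := by ring
    rw [this, Real.sin_pi_div_two]
    norm_num

/-- The program that runs `approx`. -/
noncomputable def baseCode : Nat.Partrec.Code := Classical.choose exists_code_approx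

theorem baseCode_spec (z : Machine × List ℕ) (q : Query) :
    baseCode.eval (Nat.pair (Encodable.encode z) (Encodable.encode q))
      = Part.some (Encodable.encode (approx (z, q))) :=
  Classical.choose_spec exists_code_approx z q

/-- The force compiler. -/
noncomputable def theCompiler : ForceCompiler where
  force := theForce
  compile := fun z => Nat.Partrec.Code.curry baseCode (Encodable.encode z)
  computable :=
    (Nat.Partrec.Code.primrec₂_curry.comp (Primrec.const baseCode) Primrec.encode).to_comp
  smooth := theForce_smooth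
  per := fun _ _ _ _ _ => rfl
  program := by
    intro M w k a i t x ε _ hε
    refine ⟨approx ((M, w), (k, (a 0, a 1, a 2), i, t, (x 0, x 1, x 2), ε)), ?_, ?_⟩
    · rw [Nat.Partrec.Code.eval_curry]
      exact baseCode_spec (M, w) _
    · exact approx_spec M w k a i t x ε hε
  T0 := 1
  periodic := by
    intro M
    refine ⟨1, one_pos, fun w t x ht => ?_⟩
    funext _
    simp [theForce, tf, psi_zero ht, psi_zero (by linarith : (1 : ℝ) ≤ t + 1)]
  machine_only := by
    intro M w w' t x ht
    funext _
    simp [theForce, tf, psi_zero ht]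

end Vale.Agent.Lib.P113
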