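import Vale.Agent.Lib.P113.Defs

/-!
# P113: uniqueness of classical solutions (energy method)
-/

namespace Vale.Agent.Lib.P113
open Set MeasureTheory

theorem insertNth_add_one (i : Fin 3) (c : ℝ) (y : Fin 2 → ℝ) :
    (i.insertNth (c + 1) y : R3) = (i.insertNth c y : R3) + e i := by
  funext j
  refine Fin.succAboveCases i ?_ (fun k => ?_) j
  · simp [e]
  · simp [e, Fin.succAbove_ne]

theorem integral_div_eq_zero (a : R3) (G : Fin 3 → R3 → ℝ) (G' : Fin 3 → R3 → R3 →L[ℝ] ℝ)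
    (hG : ∀ i x, HasFDerivAt (G i) (G' i x) x) (hper : ∀ i, Per (G i))
    (hint : IntegrableOn (fun x => ∑ i, G' i x (e i)) (Icc a (a + 1))) :
    ∫ x in Icc a (a + 1), ∑ i, G' i x (e i) = 0 := by
  have hle : a ≤ a + 1 := by
    intro i; simp
  have := integral_divergence_of_hasFDerivAt_off_countable' a (a + 1) hle G G' ∅ (by simp)
    (fun i => (fun x _ => (hG i x).continuousAt.continuousWithinAt))
    (fun x _ i => hG i x) hint
  unfold e at *
  rw [this]
  apply Finset.sum_eq_zero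
  intro i _
  have : ∀ y : Fin 2 → ℝ, G i (i.insertNth ((a + 1) i) y) = G i (i.insertNth (a i) y) := by
    intro y
    have h1 : (a + 1) i = a i + 1 := rfl
    rw [h1, insertNth_add_one, hper i]
  simp only [this, sub_self]

section
variable (U1 U2 : R3 → R3) (P1 P2 : R3 → ℝ) (ν : ℝ)

/-- the flux field used in the energy identity -/
noncomputable def flux (i : Fin 3) (x : R3) : ℝ :=
  ν * ∑ j, (U1 x j - U2 x j) * (pdv i U1 x j - pdv i U2 x j)
    - (P1 x - P2 x) * (U1 x i - U2 x i)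
    - (1 / 2) * (∑ j, (U1 x j - U2 x j) ^ 2) * U1 x i

variable {U1 U2 P1 P2 ν}

theorem flux_differentiable (hU1 : Differentiable ℝ U1) (hU1' : ∀ i, Differentiable ℝ (pdv i U1))
    (hU2 : Differentiable ℝ U2) (hU2' : ∀ i, Differentiable ℝ (pdv i U2))
    (hP1 : Differentiable ℝ P1) (hP2 : Differentiable ℝ P2) (i : Fin 3) :
    Differentiable ℝ (flux U1 U2 P1 P2 ν i) := by
  have h1 := hU1' i
  have h2 := hU2' i
  unfold flux
  fun_prop

theorem line_deriv_vec {U : R3 → R3} (hU : Differentiable ℝ U) (x : R3) (i j : Fin 3) :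
    HasDerivAt (fun s : ℝ => U (x + s • e i) j) (pdv i U x j) 0 := by
  have h := ((hU x).hasFDerivAt.hasLineDerivAt (e i))
  exact (hasDerivAt_pi.1 h j)

theorem line_deriv_scal {P : R3 → ℝ} (hP : Differentiable ℝ P) (x : R3) (i : Fin 3) :
    HasDerivAt (fun s : ℝ => P (x + s • e i)) (pds i P x) 0 :=
  ((hP x).hasFDerivAt.hasLineDerivAt (e i))

theorem fderiv_flux (hU1 : Differentiable ℝ U1) (hU1' : ∀ i, Differentiable ℝ (pdv i U1))
    (hU2 : Differentiable ℝ U2) (hU2' : ∀ i, Differentiable ℝ (pdv i U2))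
    (hP1 : Differentiable ℝ P1) (hP2 : Differentiable ℝ P2) (i : Fin 3) (x : R3) :
    fderiv ℝ (flux U1 U2 P1 P2 ν i) x (e i) =
      ν * ∑ j, ((pdv i U1 x j - pdv i U2 x j) * (pdv i U1 x j - pdv i U2 x j)
          + (U1 x j - U2 x j) * (pdv i (pdv i U1) x j - pdv i (pdv i U2) x j))
      - ((pds i P1 x - pds i P2 x) * (U1 x i - U2 x i)
          + (P1 x - P2 x) * (pdv i U1 x i - pdv i U2 x i))
      - ((1 / 2) * (∑ j, 2 * (U1 x j - U2 x j) * (pdv i U1 x j - pdv i U2 x j)) * U1 x i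
          + (1 / 2) * (∑ j, (U1 x j - U2 x j) ^ 2) * pdv i U1 x i) := by
  have h0 : HasDerivAt (fun s : ℝ => flux U1 U2 P1 P2 ν i (x + s • e i))
      (fderiv ℝ (flux U1 U2 P1 P2 ν i) x (e i)) 0 :=
    line_deriv_scal (flux_differentiable hU1 hU1' hU2 hU2' hP1 hP2 i) x i
  refine h0.unique ?_
  unfold flux
  have a : ∀ j, HasDerivAt (fun s : ℝ => U1 (x + s • e i) j - U2 (x + s • e i) j)
      (pdv i U1 x j - pdv i U2 x j) 0 := fun j =>
    (line_deriv_vec hU1 x i j).sub (line_deriv_vec hU2 x i j)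
  have b : ∀ j, HasDerivAt (fun s : ℝ => pdv i U1 (x + s • e i) j - pdv i U2 (x + s • e i) j)
      (pdv i (pdv i U1) x j - pdv i (pdv i U2) x j) 0 :=
    fun j => (line_deriv_vec (hU1' i) x i j).sub (line_deriv_vec (hU2' i) x i j)
  have q : HasDerivAt (fun s : ℝ => P1 (x + s • e i) - P2 (x + s • e i))
      (pds i P1 x - pds i P2 x) 0 :=
    (line_deriv_scal hP1 x i).sub (line_deriv_scal hP2 x i)
  have c := line_deriv_vec hU1 x i i
  have s1 := (HasDerivAt.fun_sum (u := Finset.univ) (fun j _ => (a j).mul (b j))).const_mul ν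
  have s2 := q.mul (a i)
  have s3 := ((HasDerivAt.fun_sum (u := Finset.univ) (fun j _ => (a j).pow 2)).const_mul (1/2)).mul c
  have := (s1.sub s2).sub s3
  convert this using 1
  · funext s; simp
  · simp

/-- The right-hand side of the momentum equation without the force. -/
noncomputable def rhs (ν : ℝ) (U : R3 → R3) (P : R3 → ℝ) (x : R3) (j : Fin 3) : ℝ :=
  - ∑ i, U x i * pdv i U x j - pds j P x + ν * ∑ i, pdv i (pdv i U) x j

theorem div_flux_eq (hU1 : Differentiable ℝ U1) (hU1' : ∀ i, Differentiable ℝ (pdv i U1))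
    (hU2 : Differentiable ℝ U2) (hU2' : ∀ i, Differentiable ℝ (pdv i U2))
    (hP1 : Differentiable ℝ P1) (hP2 : Differentiable ℝ P2)
    (x : R3) (div1 : ∑ i, pdv i U1 x i = 0) (div2 : ∑ i, pdv i U2 x i = 0) :
    ∑ i, fderiv ℝ (flux U1 U2 P1 P2 ν i) x (e i) =
      ∑ j, (U1 x j - U2 x j) * (rhs ν U1 P1 x j - rhs ν U2 P2 x j)
      + ν * ∑ i, ∑ j, (pdv i U1 x j - pdv i U2 x j) ^ 2
      + ∑ j, (U1 x j - U2 x j) * ∑ i, (U1 x i - U2 x i) * pdv i U2 x j := by
  simp only [fderiv_flux hU1 hU1' hU2 hU2' hP1 hP2]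
  unfold rhs
  simp only [Fin.sum_univ_three] at div1 div2 ⊢
  linear_combination (-(P1 x - P2 x) - (1/2) * ((U1 x 0 - U2 x 0)^2 + (U1 x 1 - U2 x 1)^2
    + (U1 x 2 - U2 x 2)^2)) * div1 + (P1 x - P2 x) * div2

theorem Per.fderiv {F : Type} [NormedAddCommGroup F] [NormedSpace ℝ F] {U : R3 → F} (h : Per U) :
    Per (fderiv ℝ U) := by
  intro i x
  have h1 : (fun y => U (y + e i)) = U := funext (h i)
  have h2 := fderiv_comp_add_right (𝕜 := ℝ) (f := U) (x := x) (e i)
  rw [h1] at h2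
  exact h2.symm

theorem Per.pdv {U : R3 → R3} (h : Per U) (k : Fin 3) : Per (pdv k U) := by
  intro i x
  unfold Vale.Agent.Lib.P113.pdv
  rw [h.fderiv i x]

theorem flux_per (perU1 : Per U1) (perU2 : Per U2) (perP1 : Per P1) (perP2 : Per P2) (i : Fin 3) :
    Per (flux U1 U2 P1 P2 ν i) := by
  intro k x
  unfold flux
  simp only [perU1 k x, perU2 k x, perP1 k x, perP2 k x, perU1.pdv i k x, perU2.pdv i k x]

theorem aux_ineq (a b d K : ℝ) (h : |d| ≤ K) : -(K * (a ^ 2 + b ^ 2) / 2) ≤ a * (b * d) := by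
  have hK : 0 ≤ K := le_trans (abs_nonneg d) h
  have h1 : |a * b| ≤ (a ^ 2 + b ^ 2) / 2 := by
    rw [abs_le]; constructor <;> nlinarith [sq_nonneg (a + b), sq_nonneg (a - b)]
  have h2 : |a * (b * d)| ≤ (a ^ 2 + b ^ 2) / 2 * K := by
    rw [← mul_assoc, abs_mul]
    exact mul_le_mul h1 h (abs_nonneg _) (by positivity)
  have := (abs_le.1 h2).1
  linarith

theorem spatial_ineq (hν : 0 ≤ ν) (a : R3)
    (hU1 : Differentiable ℝ U1) (hU1' : ∀ i, Differentiable ℝ (pdv i U1))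
    (hU2 : Differentiable ℝ U2) (hU2' : ∀ i, Differentiable ℝ (pdv i U2))
    (hP1 : Differentiable ℝ P1) (hP2 : Differentiable ℝ P2)
    (cU1 : ∀ i, Continuous (pdv i (pdv i U1))) (cU2 : ∀ i, Continuous (pdv i (pdv i U2)))
    (cP1 : ∀ i, Continuous (pds i P1)) (cP2 : ∀ i, Continuous (pds i P2))
    (perU1 : Per U1) (perU2 : Per U2) (perP1 : Per P1) (perP2 : Per P2)
    (div1 : ∀ x, ∑ i, pdv i U1 x i = 0) (div2 : ∀ x, ∑ i, pdv i U2 x i = 0)
    (K : ℝ) (hK : ∀ x ∈ Icc a (a + 1), ∀ i j, |pdv i U2 x j| ≤ K) :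
    ∫ x in Icc a (a + 1), ∑ j, (U1 x j - U2 x j) * (rhs ν U1 P1 x j - rhs ν U2 P2 x j)
      ≤ 3 * K * ∫ x in Icc a (a + 1), ∑ j, (U1 x j - U2 x j) ^ 2 := by
  have c1 : Continuous U1 := hU1.continuous
  have c2 : Continuous U2 := hU2.continuous
  have c1' : ∀ i, Continuous (pdv i U1) := fun i => (hU1' i).continuous
  have c2' : ∀ i, Continuous (pdv i U2) := fun i => (hU2' i).continuous
  have cR : Continuous (fun x => ∑ j, (U1 x j - U2 x j) * (rhs ν U1 P1 x j - rhs ν U2 P2 x j)) := by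
    unfold rhs
    fun_prop
  have cS : Continuous (fun x => ∑ j, (U1 x j - U2 x j) ^ 2) := by fun_prop
  have cD : Continuous (fun x => ∑ i, fderiv ℝ (flux U1 U2 P1 P2 ν i) x (e i)) := by
    have : (fun x => ∑ i, fderiv ℝ (flux U1 U2 P1 P2 ν i) x (e i)) = fun x =>
      ∑ j, (U1 x j - U2 x j) * (rhs ν U1 P1 x j - rhs ν U2 P2 x j)
      + ν * ∑ i, ∑ j, (pdv i U1 x j - pdv i U2 x j) ^ 2
      + ∑ j, (U1 x j - U2 x j) * ∑ i, (U1 x i - U2 x i) * pdv i U2 x j :=
      funext fun x => div_flux_eq hU1 hU1' hU2 hU2' hP1 hP2 x (div1 x) (div2 x)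
    rw [this]
    fun_prop
  have hD : ∫ x in Icc a (a + 1), ∑ i, fderiv ℝ (flux U1 U2 P1 P2 ν i) x (e i) = 0 :=
    integral_div_eq_zero a (flux U1 U2 P1 P2 ν) (fun i x => fderiv ℝ (flux U1 U2 P1 P2 ν i) x)
      (fun i x => (flux_differentiable hU1 hU1' hU2 hU2' hP1 hP2 i x).hasFDerivAt)
      (flux_per perU1 perU2 perP1 perP2) cD.integrableOn_Icc
  calc ∫ x in Icc a (a + 1), ∑ j, (U1 x j - U2 x j) * (rhs ν U1 P1 x j - rhs ν U2 P2 x j)
      ≤ ∫ x in Icc a (a + 1), ((∑ i, fderiv ℝ (flux U1 U2 P1 P2 ν i) x (e i))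
          + 3 * K * ∑ j, (U1 x j - U2 x j) ^ 2) := by
        refine setIntegral_mono_on cR.integrableOn_Icc
          (cD.add (cS.const_mul (3 * K) )).integrableOn_Icc measurableSet_Icc ?_
        intro x hx
        rw [div_flux_eq hU1 hU1' hU2 hU2' hP1 hP2 x (div1 x) (div2 x)]
        have hk := hK x hx
        have h1 : 0 ≤ ν * ∑ i, ∑ j, (pdv i U1 x j - pdv i U2 x j) ^ 2 := by
          positivity
        have h2 : -(3 * K * ∑ j, (U1 x j - U2 x j) ^ 2)
            ≤ ∑ j, (U1 x j - U2 x j) * ∑ i, (U1 x i - U2 x i) * pdv i U2 x j := by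
          simp only [Fin.sum_univ_three]
          have := fun i j => aux_ineq (U1 x j - U2 x j) (U1 x i - U2 x i) _ K (hk i j)
          linarith [this 0 0, this 0 1, this 0 2, this 1 0, this 1 1, this 1 2, this 2 0,
            this 2 1, this 2 2]
        linarith
    _ = 3 * K * ∫ x in Icc a (a + 1), ∑ j, (U1 x j - U2 x j) ^ 2 := by
        rw [integral_add cD.integrableOn_Icc (cS.const_mul (3 * K)).integrableOn_Icc, hD,
          integral_const_mul, zero_add]

end

theorem slice_continuous {Y : Type*} [TopologicalSpace Y] {T : ℝ} {g : ℝ × R3 → Y}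
    (hg : ContinuousOn g (Icc 0 T ×ˢ univ)) {t : ℝ} (ht : t ∈ Icc 0 T) :
    Continuous (fun x => g (t, x)) :=
  hg.comp_continuous (by fun_prop) (fun x => ⟨ht, mem_univ _⟩)

theorem slice_continuousOn {Y : Type*} [TopologicalSpace Y] {T : ℝ} {g : ℝ × R3 → Y}
    (hg : ContinuousOn g (Icc 0 T ×ˢ univ)) (x : R3) :
    ContinuousOn (fun t => g (t, x)) (Icc 0 T) :=
  hg.comp (by fun_prop) (fun t ht => ⟨ht, mem_univ _⟩)

section
variable {ν T : ℝ} {f : ℝ → R3 → R3} {u : ℝ → R3 → R3} {p : ℝ → R3 → ℝ}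

theorem IsClassicalSolution.per_u (h : IsClassicalSolution ν f T u p) {t : ℝ} (ht : t ∈ Icc 0 T) :
    Per (u t) := (h.1 t ht).1
theorem IsClassicalSolution.per_p (h : IsClassicalSolution ν f T u p) {t : ℝ} (ht : t ∈ Icc 0 T) :
    Per (p t) := (h.1 t ht).2
theorem IsClassicalSolution.diff_t (h : IsClassicalSolution ν f T u p) {t : ℝ} (ht : t ∈ Icc 0 T)
    (x : R3) : DifferentiableWithinAt ℝ (fun s => u s x) (Icc 0 T) t := h.2.1.1 t ht x
theorem IsClassicalSolution.diff_u (h : IsClassicalSolution ν f T u p) {t : ℝ} (ht : t ∈ Icc 0 T) :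
    Differentiable ℝ (u t) := (h.2.1.2.1 t ht).1
theorem IsClassicalSolution.diff_du (h : IsClassicalSolution ν f T u p) {t : ℝ} (ht : t ∈ Icc 0 T)
    (i : Fin 3) : Differentiable ℝ (pdv i (u t)) := (h.2.1.2.1 t ht).2.1 i
theorem IsClassicalSolution.diff_p (h : IsClassicalSolution ν f T u p) {t : ℝ} (ht : t ∈ Icc 0 T) :
    Differentiable ℝ (p t) := (h.2.1.2.1 t ht).2.2
theorem IsClassicalSolution.cont_u (h : IsClassicalSolution ν f T u p) :
    ContinuousOn (fun z : ℝ × R3 => u z.1 z.2) (Icc 0 T ×ˢ univ) := h.2.1.2.2.1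
theorem IsClassicalSolution.cont_ut (h : IsClassicalSolution ν f T u p) :
    ContinuousOn (fun z : ℝ × R3 => dtW T u z.1 z.2) (Icc 0 T ×ˢ univ) := h.2.1.2.2.2.1
theorem IsClassicalSolution.cont_du (h : IsClassicalSolution ν f T u p) (i : Fin 3) :
    ContinuousOn (fun z : ℝ × R3 => pdv i (u z.1) z.2) (Icc 0 T ×ˢ univ) := h.2.1.2.2.2.2.1 i
theorem IsClassicalSolution.cont_ddu (h : IsClassicalSolution ν f T u p) (i j : Fin 3) :
    ContinuousOn (fun z : ℝ × R3 => pdv i (pdv j (u z.1)) z.2) (Icc 0 T ×ˢ univ) :=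
  h.2.1.2.2.2.2.2.1 i j
theorem IsClassicalSolution.cont_dp (h : IsClassicalSolution ν f T u p) (i : Fin 3) :
    ContinuousOn (fun z : ℝ × R3 => pds i (p z.1) z.2) (Icc 0 T ×ˢ univ) :=
  h.2.1.2.2.2.2.2.2.2 i
theorem IsClassicalSolution.momentum (h : IsClassicalSolution ν f T u p) : Momentum ν f T u p :=
  h.2.2.1
theorem IsClassicalSolution.incompressible (h : IsClassicalSolution ν f T u p) {t : ℝ}
    (ht : t ∈ Icc 0 T) (x : R3) : ∑ i, pdv i (u t) x i = 0 := h.2.2.2.1 t ht x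
theorem IsClassicalSolution.initial (h : IsClassicalSolution ν f T u p) (x : R3) : u 0 x = 0 :=
  h.2.2.2.2.1 x
theorem IsClassicalSolution.mean_p (h : IsClassicalSolution ν f T u p) {t : ℝ} (ht : t ∈ Icc 0 T) :
    ∫ x in Icc (0 : R3) 1, p t x = 0 := h.2.2.2.2.2 t ht

theorem IsClassicalSolution.ut_eq (h : IsClassicalSolution ν f T u p) {t : ℝ} (ht : t ∈ Icc 0 T)
    (x : R3) (j : Fin 3) : dtW T u t x j = rhs ν (u t) (p t) x j + f t x j := by
  have := h.momentum t ht x j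
  unfold rhs
  linarith

end

theorem unique_u {ν T : ℝ} (hν : 0 ≤ ν) {f : ℝ → R3 → R3} {u1 u2 : ℝ → R3 → R3}
    {p1 p2 : ℝ → R3 → ℝ}
    (h1 : IsClassicalSolution ν f T u1 p1) (h2 : IsClassicalSolution ν f T u2 p2)
    (t : ℝ) (ht : t ∈ Icc 0 T) (x0 : R3) : u1 t x0 = u2 t x0 := by
  set a : R3 := fun i => x0 i - 1 / 2 with ha
  set Q : Set R3 := Icc a (a + 1) with hQ
  have hQc : IsCompact Q := isCompact_Icc
  have hcomp : IsCompact (Icc (0 : ℝ) T ×ˢ Q) := isCompact_Icc.prod hQc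
  have hsub : Icc (0 : ℝ) T ×ˢ Q ⊆ Icc 0 T ×ˢ univ := fun z hz => ⟨hz.1, mem_univ _⟩
  have cdu : ContinuousOn (fun z : ℝ × R3 => (fun i => pdv i (u2 z.1) z.2 : Fin 3 → R3))
      (Icc 0 T ×ˢ univ) := continuousOn_pi.2 fun i => h2.cont_du i
  obtain ⟨K, hK⟩ := hcomp.exists_bound_of_continuousOn (cdu.mono hsub)
  have hK' : ∀ s ∈ Icc 0 T, ∀ x ∈ Q, ∀ i j, |pdv i (u2 s) x j| ≤ K := by
    intro s hs x hx i j
    calc |pdv i (u2 s) x j| = ‖pdv i (u2 s) x j‖ := (Real.norm_eq_abs _).symm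
      _ ≤ ‖pdv i (u2 s) x‖ := norm_le_pi_norm _ j
      _ ≤ ‖(fun i => pdv i (u2 s) x : Fin 3 → R3)‖ :=
        norm_le_pi_norm (fun i => pdv i (u2 s) x : Fin 3 → R3) i
      _ ≤ K := hK (s, x) ⟨hs, hx⟩
  let F : ℝ → R3 → ℝ := fun s x => ∑ j, (u1 s x j - u2 s x j) ^ 2
  let F' : ℝ → R3 → ℝ := fun s x => ∑ j, 2 * (u1 s x j - u2 s x j) *
    (dtW T u1 s x j - dtW T u2 s x j)
  have cF : ContinuousOn (fun z : ℝ × R3 => F z.1 z.2) (Icc 0 T ×ˢ univ) := by
    have c1 := h1.cont_u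
    have c2 := h2.cont_u
    simp only [F]
    fun_prop
  have cF' : ContinuousOn (fun z : ℝ × R3 => F' z.1 z.2) (Icc 0 T ×ˢ univ) := by
    have c1 := h1.cont_u
    have c2 := h2.cont_u
    have c3 := h1.cont_ut
    have c4 := h2.cont_ut
    simp only [F']
    fun_prop
  obtain ⟨C0, hC0⟩ := hcomp.exists_bound_of_continuousOn (cF.mono hsub)
  obtain ⟨C1, hC1⟩ := hcomp.exists_bound_of_continuousOn (cF'.mono hsub)
  let μ : Measure R3 := volume.restrict Q
  have hμfin : IsFiniteMeasure μ := ⟨by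
    simp only [μ, Measure.restrict_apply MeasurableSet.univ, univ_inter]
    exact hQc.measure_lt_top⟩
  have hmemQ : ∀ᵐ x ∂μ, x ∈ Q := ae_restrict_mem measurableSet_Icc
  let E : ℝ → ℝ := fun s => ∫ x, F s x ∂μ
  have cFs : ∀ s ∈ Icc 0 T, Continuous (F s) := fun s hs => slice_continuous cF hs
  have cF's : ∀ s ∈ Icc 0 T, Continuous (F' s) := fun s hs => slice_continuous cF' hs
  -- continuity of the energy
  have cE : ContinuousOn E (Icc 0 T) := by
    refine continuousOn_of_dominated (bound := fun _ => C0)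
      (fun s hs => (cFs s hs).aestronglyMeasurable) ?_ (integrable_const _) ?_
    · intro s hs
      filter_upwards [hmemQ] with x hx
      exact hC0 (s, x) ⟨hs, hx⟩
    · exact Filter.Eventually.of_forall fun x => slice_continuousOn cF x
  -- derivative of the energy
  have dE : ∀ s ∈ Ioo 0 T, HasDerivAt E (∫ x, F' s x ∂μ) s := by
    intro s hs
    have hs' : s ∈ Icc 0 T := Ioo_subset_Icc_self hs
    refine (hasDerivAt_integral_of_dominated_loc_of_deriv_le (bound := fun _ => C1)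
      (Ioo_mem_nhds hs.1 hs.2) ?_ ((cFs s hs').integrableOn_Icc) (cF's s hs').aestronglyMeasurable
      ?_ (integrable_const _) ?_).2
    · filter_upwards [Ioo_mem_nhds hs.1 hs.2] with r hr
      exact (cFs r (Ioo_subset_Icc_self hr)).aestronglyMeasurable
    · filter_upwards [hmemQ] with x hx r hr
      exact hC1 (r, x) ⟨Ioo_subset_Icc_self hr, hx⟩
    · refine Filter.Eventually.of_forall fun x r hr => ?_
      have hr' : r ∈ Icc 0 T := Ioo_subset_Icc_self hr
      have d1 : HasDerivAt (fun r => u1 r x) (dtW T u1 r x) r :=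
        (h1.diff_t hr' x).hasDerivWithinAt.hasDerivAt (Icc_mem_nhds hr.1 hr.2)
      have d2 : HasDerivAt (fun r => u2 r x) (dtW T u2 r x) r :=
        (h2.diff_t hr' x).hasDerivWithinAt.hasDerivAt (Icc_mem_nhds hr.1 hr.2)
      have d3 : ∀ j, HasDerivAt (fun r => u1 r x j - u2 r x j)
          (dtW T u1 r x j - dtW T u2 r x j) r := fun j =>
        (hasDerivAt_pi.1 d1 j).sub (hasDerivAt_pi.1 d2 j)
      have d4 := HasDerivAt.fun_sum (u := Finset.univ) (fun j _ => (d3 j).pow 2)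
      convert d4 using 1
      · funext s; simp [F]
      · simp [F']
  -- the energy inequality
  have hineq : ∀ s ∈ Icc 0 T, ∫ x, F' s x ∂μ ≤ 6 * K * E s := by
    intro s hs
    have key := spatial_ineq (ν := ν) hν a (h1.diff_u hs) (h1.diff_du hs) (h2.diff_u hs)
      (h2.diff_du hs) (h1.diff_p hs) (h2.diff_p hs)
      (fun i => slice_continuous (h1.cont_ddu i i) hs)
      (fun i => slice_continuous (h2.cont_ddu i i) hs) (fun i => slice_continuous (h1.cont_dp i) hs)
      (fun i => slice_continuous (h2.cont_dp i) hs) (h1.per_u hs) (h2.per_u hs) (h1.per_p hs)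
      (h2.per_p hs) (h1.incompressible hs) (h2.incompressible hs) K (hK' s hs)
    have e1 : ∀ x, F' s x = 2 * ∑ j, (u1 s x j - u2 s x j) *
        (rhs ν (u1 s) (p1 s) x j - rhs ν (u2 s) (p2 s) x j) := by
      intro x
      simp only [F', h1.ut_eq hs x, h2.ut_eq hs x, Finset.mul_sum]
      refine Finset.sum_congr rfl fun j _ => ?_
      ring
    simp only [e1, integral_const_mul, E, F, μ]
    linarith
  -- Gronwall
  let h : ℝ → ℝ := fun r => E r * Real.exp (-(6 * K) * r)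
  have hanti : AntitoneOn h (Icc 0 T) := by
    have dh : ∀ r ∈ Ioo 0 T, HasDerivAt h ((∫ x, F' r x ∂μ) * Real.exp (-(6 * K) * r)
        + E r * (Real.exp (-(6 * K) * r) * (-(6 * K)))) r := by
      intro r hr
      have d5 : HasDerivAt (fun r : ℝ => Real.exp (-(6 * K) * r))
          (Real.exp (-(6 * K) * r) * (-(6 * K))) r := by
        have := ((hasDerivAt_id r).const_mul (-(6 * K))).exp
        simpa using this
      exact (dE r hr).mul d5
    refine antitoneOn_of_deriv_nonpos (convex_Icc 0 T) ?_ ?_ ?_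
    · exact cE.mul (by fun_prop)
    · rw [interior_Icc]
      exact fun r hr => (dh r hr).differentiableAt.differentiableWithinAt
    · rw [interior_Icc]
      intro r hr
      rw [(dh r hr).deriv]
      have := hineq r (Ioo_subset_Icc_self hr)
      have hpos := Real.exp_pos (-(6 * K) * r)
      nlinarith
  have hT0 : (0 : ℝ) ∈ Icc 0 T := ⟨le_rfl, ht.1.trans ht.2⟩
  have hE0 : E 0 = 0 := by
    simp [E, F, h1.initial, h2.initial]
  have hEt : E t = 0 := by
    have h3 : h t ≤ h 0 := hanti hT0 ht ht.1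
    have h4 : 0 ≤ E t := integral_nonneg fun x => Finset.sum_nonneg fun j _ => sq_nonneg _
    have hpos := Real.exp_pos (-(6 * K) * t)
    simp only [h, hE0, zero_mul] at h3
    nlinarith
  have hae : F t =ᵐ[μ] 0 :=
    (integral_eq_zero_iff_of_nonneg (fun x => Finset.sum_nonneg fun j _ => sq_nonneg _)
      (cFs t ht).integrableOn_Icc).1 hEt
  have hx0 : x0 ∈ interior Q := by
    rw [mem_interior_iff_mem_nhds]
    refine pi_Icc_mem_nhds (fun i => ?_) (fun i => ?_)
    · simp [a]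
    · simp only [a, Pi.add_apply, Pi.one_apply]; linarith
  have hzero : F t x0 = 0 :=
    Measure.eqOn_open_of_ae_eq (ae_restrict_of_ae_restrict_of_subset interior_subset hae)
      isOpen_interior (cFs t ht).continuousOn continuousOn_const hx0
  funext j
  have := (Finset.sum_eq_zero_iff_of_nonneg (fun j _ => sq_nonneg _)).1 hzero j (Finset.mem_univ j)
  have := pow_eq_zero_iff (two_ne_zero) |>.1 this
  linarith

theorem clm_eq_zero_of_basis (L : R3 →L[ℝ] ℝ) (h : ∀ i, L (e i) = 0) : L = 0 := by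
  ext v
  have hv : v = ∑ i, v i • e i := by
    funext k
    simp [e, Pi.single_apply]
  rw [hv]
  simp [map_sum, h]

theorem unique_p {ν T : ℝ} (hν : 0 ≤ ν) {f : ℝ → R3 → R3} {u1 u2 : ℝ → R3 → R3}
    {p1 p2 : ℝ → R3 → ℝ}
    (h1 : IsClassicalSolution ν f T u1 p1) (h2 : IsClassicalSolution ν f T u2 p2)
    (t : ℝ) (ht : t ∈ Icc 0 T) (x0 : R3) : p1 t x0 = p2 t x0 := by
  have hu : ∀ s ∈ Icc 0 T, u1 s = u2 s := fun s hs => funext fun x => unique_u hν h1 h2 s hs x
  have hgrad : ∀ x j, pds j (p1 t) x = pds j (p2 t) x := by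
    intro x j
    have m1 := h1.momentum t ht x j
    have m2 := h2.momentum t ht x j
    have hd : dtW T u1 t x = dtW T u2 t x :=
      derivWithin_congr (fun s hs => by rw [hu s hs]) (by rw [hu t ht])
    rw [hd, hu t ht, m2] at m1
    linarith
  let g : R3 → ℝ := fun x => p1 t x - p2 t x
  have hg : Differentiable ℝ g := (h1.diff_p ht).sub (h2.diff_p ht)
  have hg' : ∀ x, fderiv ℝ g x = 0 := by
    intro x
    apply clm_eq_zero_of_basis
    intro i
    have : fderiv ℝ g x = fderiv ℝ (p1 t) x - fderiv ℝ (p2 t) x :=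
      fderiv_fun_sub (h1.diff_p ht x) (h2.diff_p ht x)
    rw [this]
    have := hgrad x i
    simp only [pds] at this
    simp [this]
  have hconst : ∀ x, g x = g x0 := fun x => is_const_of_fderiv_eq_zero hg hg' x x0
  have hint : ∫ x in Icc (0 : R3) 1, g x = 0 := by
    have i1 : IntegrableOn (p1 t) (Icc (0 : R3) 1) := (h1.diff_p ht).continuous.integrableOn_Icc
    have i2 : IntegrableOn (p2 t) (Icc (0 : R3) 1) := (h2.diff_p ht).continuous.integrableOn_Icc
    simp only [g]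
    rw [integral_sub i1 i2, h1.mean_p ht, h2.mean_p ht, sub_zero]
  simp only [hconst] at hint
  rw [setIntegral_const] at hint
  have hvol : (volume : Measure R3).real (Icc (0 : R3) 1) = 1 := by
    simp [Measure.real, Real.volume_Icc_pi]
  rw [hvol] at hint
  simp only [g, one_smul] at hint
  linarith

end Vale.Agent.Lib.P113
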